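import Vale.Agent.P134.H239.DLemma2
import Vale.Agent.P134.SM.Ibp
import Vale.Agent.P134.M4.Defs

/-! # P134 / M4' 1.4 (helper239): the D-estimates in the form used by `StC`. -/

open MeasureTheory Filter Topology

namespace Vale.Agent.P134.H239

open Vale.Agent.P134 Vale.Agent.P134.SM Vale.Agent.P134.M4

variable {n : ℕ} {u f g h ζ Z F G η : (Fin n → ℝ) → ℝ} {x : Fin n → ℝ} {i j : Fin n}
  {C R l L m C0 c : ℝ}

namespace Std

variable (H : Std u)
include H

lemma psi_ineq (hc : Cutoff C R ζ) :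
    2 * (∫ x in box n R, psi u x) ≤ 3 * (∫ x in box n (2 * R), psi u x ^ 2)
      + n * (C / R ^ 2) * ∫ x in box n (2 * R), psi u x := by
  have hζ2 : ContDiff ℝ 2 ζ := hc.c3.of_le (by norm_num)
  have cζ : Continuous ζ := hζ2.continuous
  have cψ := H.psic
  have cL : Continuous (lap (psi u)) := by
    unfold lap
    exact continuous_finsetSum _ fun i _ => continuous_pd (contDiff_pd_one H.psi2)
  have cLζ : Continuous (lap ζ) := by
    unfold lap
    exact continuous_finsetSum _ fun i _ => continuous_pd (contDiff_pd_one hζ2)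
  have hg := int_lap_symm hζ2 hc.hcs H.psi2
  have h1 : ∫ x, (ζ x * (2 * psi u x) - ζ x * lap (psi u) x)
      ≤ ∫ x in box n (2 * R), 3 * psi u x ^ 2 := by
    refine int_le_box (by fun_prop) (by fun_prop) (fun x hx => ?_) fun x _ => ?_
    · rw [hc.zero x hx]; ring
    · have e := lap_psi_qq H.sol H.lt x
      have e' : lap (psi u) x = psi u x * (2 - 3 * psi u x + psi u x * qq u x) := e
      rw [e']
      have h0 := (H.psi_pos x).le
      have hq := H.q0 x
      have a1 : 0 ≤ ζ x * (psi u x * (psi u x * qq u x)) :=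
        mul_nonneg (hc.nonneg x) (by positivity)
      have a2 : ζ x * psi u x ^ 2 ≤ psi u x ^ 2 := by
        nlinarith [hc.le_one x, sq_nonneg (psi u x)]
      nlinarith
  have h2 : ∫ x, psi u x * lap ζ x ≤ ∫ x in box n (2 * R), n * (C / R ^ 2) * psi u x := by
    refine int_le_box (by fun_prop) (by fun_prop) (fun x hx => ?_) fun x _ => ?_
    · unfold lap
      simp_rw [hc.pd_pd_zero hx]
      simp
    · have a1 : lap ζ x ≤ n * (C / R ^ 2) := by
        unfold lap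
        calc ∑ i, pd i (pd i ζ) x ≤ ∑ _i : Fin n, C / R ^ 2 :=
              Finset.sum_le_sum fun i _ => (le_abs_self _).trans (hc.b2 i i x)
          _ = _ := by simp
      have := mul_le_mul_of_nonneg_left a1 (H.psi_pos x).le
      linarith
  have i1 : Integrable (fun x => ζ x * (2 * psi u x)) :=
    Continuous.integrable_of_hasCompactSupport (by fun_prop) hc.hcs.mul_right
  have i2 : Integrable (fun x => ζ x * lap (psi u) x) :=
    Continuous.integrable_of_hasCompactSupport (by fun_prop) hc.hcs.mul_right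
  have h3 : ∫ x in box n R, 2 * psi u x ≤ ∫ x, ζ x * (2 * psi u x) := by
    refine box_le_int (by fun_prop) (by fun_prop) hc.hcs.mul_right (fun x => ?_) fun x hx => ?_
    · have := hc.nonneg x
      have := H.psi_pos x
      positivity
    · rw [hc.one x hx, one_mul]
  rw [integral_sub i1 i2, hg, integral_const_mul] at h1
  rw [integral_const_mul] at h2 h3
  linarith

lemma psi_bound (hC : 0 ≤ C) (hn : n ≤ 4)
    (hcut : ∀ R : ℝ, 0 < R → Cutoff C R (chiR (n := n) R))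
    (hE : ∀ R : ℝ, 1 ≤ R → ∫ x in box n R, psi u x ^ 2 ≤ c * R ^ 3) (R : ℝ) (hR : 1 ≤ R) :
    ∫ x in box n R, psi u x ≤ (12 * c + n * C * 4 ^ n) * R ^ 3 := by
  have hR0 : 0 < R := by linarith
  have cψ := H.psic
  have h1 := H.psi_ineq (hcut R hR0)
  have h2 := hE (2 * R) (by linarith)
  have h3 : ∫ x in box n (2 * R), psi u x ≤ ∫ _x in box n (2 * R), (1:ℝ) :=
    box_int_le (by fun_prop) (by fun_prop) fun x _ => psi_le_one u x
  rw [box_int_const (by linarith)] at h3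
  have h4 : (2 * (2 * R)) ^ n * 1 ≤ 4 ^ n * R ^ 4 := by
    rw [mul_one, show 2 * (2 * R) = 4 * R by ring, mul_pow]
    exact mul_le_mul_of_nonneg_left (pow_le_pow_right₀ hR hn) (by positivity)
  have h5 : n * (C / R ^ 2) * (∫ x in box n (2 * R), psi u x) ≤ n * (C / R ^ 2) * (4 ^ n * R ^ 4) :=
    mul_le_mul_of_nonneg_left (h3.trans h4) (by positivity)
  have h6 : n * (C / R ^ 2) * (4 ^ n * R ^ 4) = n * C * 4 ^ n * R ^ 2 := by
    field_simp
  have h7 : n * C * 4 ^ n * R ^ 2 ≤ n * C * 4 ^ n * R ^ 3 :=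
    mul_le_mul_of_nonneg_left (pow_le_pow_right₀ hR (by norm_num)) (by positivity)
  have h8 : 0 ≤ n * C * 4 ^ n * R ^ 3 := by positivity
  nlinarith

end Std

lemma log_sq_le (hR : 1 ≤ R) : (1 + Real.log R) ^ 2 ≤ 16 * √R := by
  have h0 : (0:ℝ) < √R := Real.sqrt_pos.mpr (by linarith)
  have h00 : (0:ℝ) < √√R := Real.sqrt_pos.mpr h0
  have e1 : Real.log R = 4 * Real.log (√√R) := by
    rw [Real.log_sqrt h0.le, Real.log_sqrt (by linarith)]; ring
  have e2 : Real.log (√√R) ≤ √√R - 1 := Real.log_le_sub_one_of_pos h00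
  have e3 := Real.log_nonneg hR
  have e4 : √√R ^ 2 = √R := Real.sq_sqrt h0.le
  have e5 : 1 + Real.log R ≤ 4 * √√R := by rw [e1]; linarith
  calc (1 + Real.log R) ^ 2 ≤ (4 * √√R) ^ 2 := pow_le_pow_left₀ (by linarith) e5 2
    _ = 16 * √R := by rw [mul_pow, e4]; norm_num

lemma box_subset_bl : box 4 R ⊆ bl (n := 4) (2 * R) := by
  intro x hx
  rw [mem_box] at hx
  simp only [bl, Set.mem_ofPred_eq, rho]
  have : ∀ i ∈ (Finset.univ : Finset (Fin 4)), x i ^ 2 ≤ R ^ 2 := fun i _ => by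
    rw [← sq_abs]
    exact pow_le_pow_left₀ (abs_nonneg _) (hx i) 2
  refine (Finset.sum_le_sum this).trans (le_of_eq ?_)
  simp; ring

lemma bl_subset_box (hR : 0 ≤ R) : bl (n := n) R ⊆ box n R := by
  intro x hx
  rw [mem_box]
  intro i
  simp only [bl, Set.mem_ofPred_eq] at hx
  have h1 : x i ^ 2 ≤ R ^ 2 := (sq_le_rho (Finset.mem_univ i) x).trans hx
  exact abs_le_of_sq_le_sq h1 hR

lemma isClosed_bl : IsClosed (bl (n := n) R) :=
  isClosed_le (rho_contDiff (k := 0) Finset.univ).continuous continuous_const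

lemma isCompact_bl (hR : 0 ≤ R) : IsCompact (bl (n := n) R) :=
  (isCompact_box R).of_isClosed_subset isClosed_bl (bl_subset_box hR)

lemma int_bl_le_box (hR : 0 ≤ R) (hF : Continuous F) (h0 : ∀ x, 0 ≤ F x) :
    ∫ x in bl R, F x ≤ ∫ x in box n R, F x :=
  setIntegral_mono_set (hF.continuousOn.integrableOn_compact (isCompact_box R))
    (Filter.Eventually.of_forall h0) (Filter.Eventually.of_forall (bl_subset_box hR))

lemma int_box_le_bl {F : (Fin 4 → ℝ) → ℝ} (hR : 0 ≤ R) (hF : Continuous F) (h0 : ∀ x, 0 ≤ F x) :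
    ∫ x in box 4 R, F x ≤ ∫ x in bl (2 * R), F x :=
  setIntegral_mono_set (hF.continuousOn.integrableOn_compact (isCompact_bl (by linarith)))
    (Filter.Eventually.of_forall h0) (Filter.Eventually.of_forall box_subset_bl)

lemma sqrt_gs_le (f : (Fin n → ℝ) → ℝ) (x : Fin n → ℝ) : √(gs f x) ≤ ∑ j, |pd j f x| := by
  rw [Real.sqrt_le_left (Finset.sum_nonneg fun _ _ => abs_nonneg _)]
  unfold gs
  have : ∀ j, pd j f x ^ 2 = |pd j f x| ^ 2 := fun j => (sq_abs _).symm
  simp_rw [this]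
  have h1 : ∀ j ∈ (Finset.univ : Finset (Fin n)), |pd j f x| ^ 2 ≤ |pd j f x| * ∑ k, |pd k f x| :=
    fun j _ => by
      rw [sq]
      exact mul_le_mul_of_nonneg_left
        (Finset.single_le_sum (f := fun k => |pd k f x|) (fun _ _ => abs_nonneg _)
          (Finset.mem_univ j)) (abs_nonneg _)
  refine (Finset.sum_le_sum h1).trans (le_of_eq ?_)
  rw [← Finset.sum_mul]; ring

/-- The strong form of the D-estimates, on Euclidean balls. -/
structure DOut (K : ℝ) (u : (Fin 4 → ℝ) → ℝ) : Prop where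
  psi1 : ∀ R : ℝ, 1 ≤ R → ∫ x in bl R, psi u x ≤ K * R ^ 3
  D : ∀ R : ℝ, 1 ≤ R → ∫ x in bl R, defi u x ≤ K * (1 + Real.log R) ^ 2 * R
  gD : ∀ R : ℝ, 1 ≤ R → ∫ x in bl R, √(gs (defi u) x) ≤ K * (1 + Real.log R) ^ 2 * R
  h : ∀ R : ℝ, 1 ≤ R → ∫ x in bl R, psi u x ^ 2 * hh u x ≤ K * R
  d : ∀ R : ℝ, 1 ≤ R → ∫ x in bl R, psi u x ^ 2 * |dd u x| ≤ K * R ^ 3

theorem dout {u : (Fin 4 → ℝ) → ℝ} (hu : Sol u) (hlt : ∀ x, |u x| < 1) (hE : E3 u) (hST : ST u) :
    ∃ K : ℝ, 1 ≤ K ∧ DOut K u := by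
  have hst : DStab u := ⟨hu, fun η hη hc => hST.2 η hη hc⟩
  have H : Std u := ⟨hst, hlt⟩
  have cψ := H.psic
  have cq := H.qqc
  have ch := H.hhc
  have cd : Continuous (dd u) := H.dd3.continuous
  obtain ⟨C0, hC0⟩ := hE
  have hEb : ∀ R : ℝ, 1 ≤ R → ∫ x in box 4 R, psi u x ^ 2 ≤ (8 * C0) * R ^ 3 := by
    intro R hR
    refine (int_box_le_bl (by linarith) (by fun_prop) fun x => sq_nonneg _).trans ?_
    refine (hC0 (2 * R) (by linarith)).trans (le_of_eq ?_)
    ring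
  obtain ⟨C, hC1, hcut⟩ := exists_cutoff 4
  obtain ⟨K, hK1, hK⟩ := dlemma (n := 4) le_rfl (8 * C0)
  have hB := hK u hst hlt hEb
  have hP := H.psi_bound (by linarith) le_rfl hcut hEb
  refine ⟨max K (12 * (8 * C0) + (4:ℕ) * C * 4 ^ 4), hK1.trans (le_max_left _ _), ?_⟩
  set M := max K (12 * (8 * C0) + (4:ℕ) * C * 4 ^ 4) with hM
  have hKM : K ≤ M := le_max_left _ _
  have hl2 : ∀ R : ℝ, 1 ≤ R → 0 ≤ (1 + Real.log R) ^ 2 * R := fun R hR => by
    have := Real.log_nonneg hR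
    positivity
  have cD2 : ContDiff ℝ 2 (defi u) := H.defi_contDiff
  have cDi : ∀ j, Continuous (pd j (defi u)) := fun j => continuous_pd (cD2.of_le (by norm_num))
  have cD : Continuous (defi u) := cD2.continuous
  refine ⟨fun R hR => ?_, fun R hR => ?_, fun R hR => ?_, fun R hR => ?_, fun R hR => ?_⟩
  · refine (int_bl_le_box (by linarith) (by fun_prop) fun x => (H.psi_pos x).le).trans ?_
    exact (hP R hR).trans (mul_le_mul_of_nonneg_right (le_max_right _ _) (by positivity))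
  · refine (int_bl_le_box (by linarith) (by fun_prop) fun x => hu.defi_nonneg x).trans ?_
    refine (hB.D R hR).trans ?_
    rw [mul_assoc, mul_assoc]
    exact mul_le_mul_of_nonneg_right hKM (hl2 R hR)
  · have c1 : Continuous fun x => ∑ j, |pd j (defi u) x| :=
      continuous_finsetSum _ fun j _ => (cDi j).abs
    have c2 : Continuous fun x => √(gs (defi u) x) := by
      unfold gs
      exact (continuous_finsetSum _ fun j _ => (cDi j).pow 2).sqrt
    refine (int_bl_le_box (by linarith) c2 fun x => Real.sqrt_nonneg _).trans ?_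
    refine (box_int_le c2 c1 fun x _ => sqrt_gs_le _ x).trans ?_
    refine (hB.gD R hR).trans ?_
    rw [mul_assoc, mul_assoc]
    exact mul_le_mul_of_nonneg_right hKM (hl2 R hR)
  · refine (int_bl_le_box (by linarith) (by fun_prop) fun x =>
      mul_nonneg (sq_nonneg _) hh_nonneg).trans ?_
    exact (hB.h R hR).trans (mul_le_mul_of_nonneg_right hKM (by linarith))
  · refine (int_bl_le_box (by linarith) (by fun_prop) fun x =>
      mul_nonneg (sq_nonneg _) (abs_nonneg _)).trans ?_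
    exact (hB.d R hR).trans (mul_le_mul_of_nonneg_right hKM (by positivity))

/-- **M4' 1.4**: the four outputs used by 1.5-1.7. -/
theorem d_estimates {u : (Fin 4 → ℝ) → ℝ} (hu : Sol u) (hlt : ∀ x, |u x| < 1) (hE : E3 u)
    (hST : ST u) :
    (∃ C : ℝ, ∀ R : ℝ, 1 ≤ R → ∫ x in bl R, psi u x ≤ C * R ^ 3) ∧
    (∃ C : ℝ, ∀ R : ℝ, 1 ≤ R → ∫ x in bl R, defi u x ≤ C * R ^ 2) ∧
    (∃ C : ℝ, ∀ R : ℝ, 1 ≤ R → ∫ x in bl R, √(gs (defi u) x) ≤ C * R ^ 2) ∧
    (∀ ε : ℝ, 0 < ε → ∀ᶠ R : ℝ in atTop, ∫ x in bl R, defi u x ≤ ε * R ^ 2) ∧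
    (∀ ε : ℝ, 0 < ε → ∀ᶠ R : ℝ in atTop, ∫ x in bl R, √(gs (defi u) x) ≤ ε * R ^ 2) ∧
    (∀ ε : ℝ, 0 < ε → ∃ δ : ℝ, 0 < δ ∧ ∀ᶠ R : ℝ in atTop,
      ∫ x in bl R ∩ {x | defi u x ≤ δ * psi u x ^ 2}, √(gs (defi u) x) ≤ ε * R ^ 2) := by
  obtain ⟨K, hK1, hO⟩ := dout hu hlt hE hST
  have key : ∀ R : ℝ, 1 ≤ R → K * (1 + Real.log R) ^ 2 * R ≤ 16 * K * (√R * R) := by
    intro R hR
    have h1 := log_sq_le hR
    have h2 : 0 ≤ K * R := by nlinarith
    have := mul_le_mul_of_nonneg_left h1 h2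
    nlinarith
  have key2 : ∀ R : ℝ, 1 ≤ R → K * (1 + Real.log R) ^ 2 * R ≤ 16 * K * R ^ 2 := by
    intro R hR
    refine (key R hR).trans ?_
    have h1 : √R ≤ R := by
      rw [Real.sqrt_le_left (by linarith)]; nlinarith
    have h2 : √R * R ≤ R ^ 2 := by nlinarith
    exact mul_le_mul_of_nonneg_left h2 (by linarith)
  have key3 : ∀ ε : ℝ, 0 < ε → ∀ᶠ R : ℝ in atTop, 1 ≤ R ∧
      K * (1 + Real.log R) ^ 2 * R ≤ ε * R ^ 2 := by
    intro ε hε
    filter_upwards [eventually_ge_atTop (max 1 ((16 * K / ε) ^ 2))] with R hR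
    have hR1 : 1 ≤ R := (le_max_left _ _).trans hR
    have hR2 : (16 * K / ε) ^ 2 ≤ R := (le_max_right _ _).trans hR
    refine ⟨hR1, (key R hR1).trans ?_⟩
    have h1 : 16 * K / ε ≤ √R := Real.le_sqrt_of_sq_le hR2
    have h2 : 16 * K ≤ √R * ε := (div_le_iff₀ hε).mp h1
    have h3 : √R * √R = R := Real.mul_self_sqrt (by linarith)
    have h4 : 0 ≤ √R * R := mul_nonneg (Real.sqrt_nonneg _) (by linarith)
    calc 16 * K * (√R * R) ≤ √R * ε * (√R * R) := mul_le_mul_of_nonneg_right h2 h4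
      _ = ε * ((√R * √R) * R) := by ring
      _ = ε * R ^ 2 := by rw [h3]; ring
  refine ⟨⟨K, hO.psi1⟩, ⟨16 * K, fun R hR => (hO.D R hR).trans (key2 R hR)⟩,
    ⟨16 * K, fun R hR => (hO.gD R hR).trans (key2 R hR)⟩, fun ε hε => ?_, fun ε hε => ?_,
    fun ε hε => ⟨1, one_pos, ?_⟩⟩
  · filter_upwards [key3 ε hε] with R hR using (hO.D R hR.1).trans hR.2
  · filter_upwards [key3 ε hε] with R hR using (hO.gD R hR.1).trans hR.2
  · filter_upwards [key3 ε hε] with R hR
    refine le_trans ?_ ((hO.gD R hR.1).trans hR.2)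
    have H : Std u := ⟨⟨hu, fun η hη hc => hST.2 η hη hc⟩, hlt⟩
    have c2 : Continuous fun x => √(gs (defi u) x) := by
      unfold gs
      exact (continuous_finsetSum _ fun j _ =>
        (continuous_pd (H.defi_contDiff.of_le (by norm_num))).pow 2).sqrt
    exact setIntegral_mono_set
      (c2.continuousOn.integrableOn_compact (isCompact_bl (by linarith [hR.1])))
      (Filter.Eventually.of_forall fun x => Real.sqrt_nonneg _)
      (Filter.Eventually.of_forall Set.inter_subset_left)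

end Vale.Agent.P134.H239
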