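import Vale.Agent.P134.H239.Ident

/-! # P134 / M4 (helper239): box cutoffs with two derivatives controlled, and integration by
parts for `wdiv`. -/

open MeasureTheory Filter Topology

namespace Vale.Agent.P134.H239

open Vale.Agent.P134

variable {n : ℕ} {u f g h ζ Z F : (Fin n → ℝ) → ℝ} {x : Fin n → ℝ} {i j : Fin n}

/-- a smooth function, one on the unit box and zero off the box of size two -/
noncomputable def chi (x : Fin n → ℝ) : ℝ := ∏ i, Real.smoothTransition (2 - x i ^ 2)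

lemma chi_contDiff : ContDiff ℝ 3 (chi (n := n)) := by
  unfold chi
  refine contDiff_prod fun i _ => ?_
  have h1 : ContDiff ℝ 3 Real.smoothTransition := Real.smoothTransition.contDiff (n := 3)
  have h2 : ContDiff ℝ 3 (fun x : Fin n → ℝ => 2 - x i ^ 2) :=
    contDiff_const.sub ((contDiff_apply ℝ ℝ i).pow 2)
  exact h1.comp h2

lemma chi_nonneg (x : Fin n → ℝ) : 0 ≤ chi x :=
  Finset.prod_nonneg fun _ _ => Real.smoothTransition.nonneg _

lemma chi_le_one (x : Fin n → ℝ) : chi x ≤ 1 :=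
  Finset.prod_le_one (fun _ _ => Real.smoothTransition.nonneg _)
    (fun _ _ => Real.smoothTransition.le_one _)

lemma chi_one {x : Fin n → ℝ} (hx : x ∈ box n 1) : chi x = 1 := by
  refine Finset.prod_eq_one fun i _ => ?_
  have := mem_box.mp hx i
  refine Real.smoothTransition.one_of_one_le ?_
  have : x i ^ 2 ≤ 1 := by
    rw [← sq_abs]; nlinarith [abs_nonneg (x i)]
  linarith

lemma chi_zero {x : Fin n → ℝ} (hx : x ∉ box n 2) : chi x = 0 := by
  rw [mem_box] at hx
  push Not at hx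
  obtain ⟨i, hi⟩ := hx
  refine Finset.prod_eq_zero (Finset.mem_univ i) ?_
  refine Real.smoothTransition.zero_of_nonpos ?_
  have : (4:ℝ) ≤ x i ^ 2 := by
    rw [← sq_abs]; nlinarith [abs_nonneg (x i)]
  linarith

lemma chi_hcs : HasCompactSupport (chi (n := n)) :=
  HasCompactSupport.intro (isCompact_box 2) fun _ hx => chi_zero hx

lemma pd_smul (hf : Differentiable ℝ f) (c : ℝ) :
    pd i (fun y => f (c • y)) x = c * pd i f (c • x) := by
  unfold pd
  have h1 : HasFDerivAt (fun y : Fin n → ℝ => c • y) (c • ContinuousLinearMap.id ℝ (Fin n → ℝ)) x :=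
    (hasFDerivAt_id x).const_smul c
  have h2 := (hf (c • x)).hasFDerivAt.comp x h1
  have h3 : fderiv ℝ (fun y => f (c • y)) x
      = (fderiv ℝ f (c • x)).comp (c • ContinuousLinearMap.id ℝ (Fin n → ℝ)) := h2.fderiv
  rw [h3]
  simp

/-- the cutoff at scale `R` -/
noncomputable def chiR (R : ℝ) (x : Fin n → ℝ) : ℝ := chi (R⁻¹ • x)

lemma chiR_contDiff (R : ℝ) : ContDiff ℝ 3 (chiR (n := n) R) := by
  unfold chiR
  exact chi_contDiff.comp (contDiff_const_smul R⁻¹)

lemma chiR_nonneg (R : ℝ) (x : Fin n → ℝ) : 0 ≤ chiR R x := chi_nonneg _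

lemma chiR_le_one (R : ℝ) (x : Fin n → ℝ) : chiR R x ≤ 1 := chi_le_one _

lemma smul_mem_box {R r : ℝ} (hR : 0 < R) {x : Fin n → ℝ} :
    R⁻¹ • x ∈ box n r ↔ x ∈ box n (r * R) := by
  rw [mem_box, mem_box]
  refine forall_congr' fun i => ?_
  rw [Pi.smul_apply, smul_eq_mul, abs_mul, abs_of_pos (inv_pos.mpr hR), inv_mul_le_iff₀ hR,
    mul_comm r R]

lemma chiR_one {R : ℝ} (hR : 0 < R) {x : Fin n → ℝ} (hx : x ∈ box n R) : chiR R x = 1 :=
  chi_one ((smul_mem_box hR).mpr (by simpa using hx))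

lemma chiR_zero {R : ℝ} (hR : 0 < R) {x : Fin n → ℝ} (hx : x ∉ box n (2 * R)) : chiR R x = 0 :=
  chi_zero (fun h => hx ((smul_mem_box hR).mp h))

lemma chiR_hcs {R : ℝ} (hR : 0 < R) : HasCompactSupport (chiR (n := n) R) :=
  HasCompactSupport.intro (isCompact_box (2 * R)) fun _ hx => chiR_zero hR hx

lemma pd_chiR (R : ℝ) (i : Fin n) (x : Fin n → ℝ) :
    pd i (chiR R) x = R⁻¹ * pd i chi (R⁻¹ • x) :=
  pd_smul (chi_contDiff.differentiable (by norm_num)) _

lemma pd_pd_chiR (R : ℝ) (i j : Fin n) (x : Fin n → ℝ) :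
    pd i (pd j (chiR R)) x = R⁻¹ * (R⁻¹ * pd i (pd j chi) (R⁻¹ • x)) := by
  have h1 : pd j (chiR (n := n) R) = fun y => R⁻¹ * pd j chi (R⁻¹ • y) := by
    funext y; exact pd_chiR R j y
  have h2 : Differentiable ℝ (pd j (chi (n := n))) :=
    (contDiff_pd_one (chi_contDiff.of_le (by norm_num))).differentiable (by norm_num)
  have h3 : Differentiable ℝ (fun y : Fin n → ℝ => pd j chi (R⁻¹ • y)) :=
    h2.comp (by fun_prop : Differentiable ℝ (fun y : Fin n → ℝ => R⁻¹ • y))
  rw [h1, pd_mul (f := fun _ => R⁻¹) (by fun_prop) (h3 x), pd_const, pd_smul h2]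
  ring

lemma notMem_box_pd_eq_zero {R : ℝ} (h0 : ∀ x ∉ box n R, f x = 0) (hx : x ∉ box n R) :
    pd i f x = 0 := by
  have hop : IsOpen (box n R)ᶜ := (isCompact_box R).isClosed.isOpen_compl
  have : f =ᶠ[𝓝 x] fun _ => 0 := by
    filter_upwards [hop.mem_nhds hx] with y hy using h0 y hy
  unfold pd
  rw [this.fderiv_eq]
  simp

lemma exists_chi_bound : ∃ C : ℝ, 1 ≤ C ∧ (∀ (i : Fin n) x, |pd i chi x| ≤ C) ∧
    (∀ (i j : Fin n) x, |pd i (pd j chi) x| ≤ C) := by
  have h1 : ∀ i : Fin n, ∃ C, ∀ x, |pd i (chi (n := n)) x| ≤ C := fun i => by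
    have hc : Continuous (pd i (chi (n := n))) := continuous_pd (chi_contDiff.of_le (by norm_num))
    obtain ⟨C, hC⟩ := hc.bounded_above_of_compact_support (hasCompactSupport_pd chi_hcs)
    exact ⟨C, fun x => hC x⟩
  have h2 : ∀ i j : Fin n, ∃ C, ∀ x, |pd i (pd j (chi (n := n))) x| ≤ C := fun i j => by
    have hc : Continuous (pd i (pd j (chi (n := n)))) :=
      continuous_pd (contDiff_pd_one (chi_contDiff.of_le (by norm_num)))
    obtain ⟨C, hC⟩ := hc.bounded_above_of_compact_support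
      (hasCompactSupport_pd (hasCompactSupport_pd chi_hcs))
    exact ⟨C, fun x => hC x⟩
  choose C1 hC1 using h1
  choose C2 hC2 using h2
  refine ⟨1 + ∑ i, |C1 i| + ∑ i, ∑ j, |C2 i j|, ?_, ?_, ?_⟩
  · have : 0 ≤ ∑ i, |C1 i| := Finset.sum_nonneg fun _ _ => abs_nonneg _
    have : 0 ≤ ∑ i, ∑ j, |C2 i j| :=
      Finset.sum_nonneg fun _ _ => Finset.sum_nonneg fun _ _ => abs_nonneg _
    linarith
  · intro i x
    have a1 : |C1 i| ≤ ∑ i, |C1 i| :=
      Finset.single_le_sum (f := fun i => |C1 i|) (fun _ _ => abs_nonneg _) (Finset.mem_univ i)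
    have a2 : 0 ≤ ∑ i, ∑ j, |C2 i j| :=
      Finset.sum_nonneg fun _ _ => Finset.sum_nonneg fun _ _ => abs_nonneg _
    have := hC1 i x
    have := le_abs_self (C1 i)
    linarith
  · intro i j x
    have a1 : 0 ≤ ∑ i, |C1 i| := Finset.sum_nonneg fun _ _ => abs_nonneg _
    have a2 : ∑ j, |C2 i j| ≤ ∑ i, ∑ j, |C2 i j| :=
      Finset.single_le_sum (f := fun i => ∑ j, |C2 i j|)
        (fun _ _ => Finset.sum_nonneg fun _ _ => abs_nonneg _) (Finset.mem_univ i)
    have a3 : |C2 i j| ≤ ∑ j, |C2 i j| :=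
      Finset.single_le_sum (f := fun j => |C2 i j|) (fun _ _ => abs_nonneg _) (Finset.mem_univ j)
    have := hC2 i j x
    have := le_abs_self (C2 i j)
    linarith

/-- properties of a box cutoff at scale `R` with constant `C` -/
structure Cutoff (C R : ℝ) (ζ : (Fin n → ℝ) → ℝ) : Prop where
  c3 : ContDiff ℝ 3 ζ
  nonneg : ∀ x, 0 ≤ ζ x
  le_one : ∀ x, ζ x ≤ 1
  one : ∀ x ∈ box n R, ζ x = 1
  zero : ∀ x, x ∉ box n (2 * R) → ζ x = 0
  b1 : ∀ (i : Fin n) x, |pd i ζ x| ≤ C / R
  b2 : ∀ (i j : Fin n) x, |pd i (pd j ζ) x| ≤ C / R ^ 2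

theorem exists_cutoff (n : ℕ) : ∃ C : ℝ, 1 ≤ C ∧ ∀ R : ℝ, 0 < R → Cutoff C R (chiR (n := n) R) := by
  obtain ⟨C, hC, h1, h2⟩ := exists_chi_bound (n := n)
  refine ⟨C, hC, fun R hR => ⟨chiR_contDiff R, chiR_nonneg R, chiR_le_one R,
    fun x => chiR_one hR, fun x => chiR_zero hR, ?_, ?_⟩⟩
  · intro i x
    rw [pd_chiR, abs_mul, abs_of_pos (inv_pos.mpr hR), div_eq_inv_mul]
    exact mul_le_mul_of_nonneg_left (h1 i _) (inv_pos.mpr hR).le
  · intro i j x
    rw [pd_pd_chiR, abs_mul, abs_mul, abs_of_pos (inv_pos.mpr hR)]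
    have := h2 i j (R⁻¹ • x)
    calc R⁻¹ * (R⁻¹ * |pd i (pd j chi) (R⁻¹ • x)|) ≤ R⁻¹ * (R⁻¹ * C) := by gcongr
      _ = C / R ^ 2 := by field_simp

namespace Cutoff

variable {C R : ℝ}

lemma hcs (hc : Cutoff C R ζ) : HasCompactSupport ζ :=
  HasCompactSupport.intro (isCompact_box (2 * R)) fun _ hx => hc.zero _ hx

lemma pd_zero (hc : Cutoff C R ζ) (hx : x ∉ box n (2 * R)) : pd i ζ x = 0 :=
  notMem_box_pd_eq_zero hc.zero hx

lemma pd_pd_zero (hc : Cutoff C R ζ) (hx : x ∉ box n (2 * R)) : pd i (pd j ζ) x = 0 :=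
  notMem_box_pd_eq_zero (fun _ => hc.pd_zero) hx

end Cutoff

/-- weighted divergence is integration by parts adjoint of the weighted Dirichlet form -/
lemma int_wdiv (hψ : ContDiff ℝ 1 (psi u)) (hf : ContDiff ℝ 2 f) (hF : ContDiff ℝ 1 F)
    (hc : HasCompactSupport F) :
    ∫ x, F x * wdiv u f x = - ∫ x, psi u x ^ 2 * ∑ i, pd i F x * pd i f x := by
  have hg : ∀ i, ContDiff ℝ 1 (fun y => psi u y ^ 2 * pd i f y) := fun i =>
    (hψ.pow 2).mul (contDiff_pd_one hf)
  have e1 : ∀ i : Fin n, ∫ x, F x * pd i (fun y => psi u y ^ 2 * pd i f y) x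
      = - ∫ x, psi u x ^ 2 * (pd i F x * pd i f x) := by
    intro i
    have h1 := integral_mul_pd (i := i) (hg i) hF hc
    have h2 : ∫ x, F x * pd i (fun y => psi u y ^ 2 * pd i f y) x
        = ∫ x, pd i (fun y => psi u y ^ 2 * pd i f y) x * F x := by
      congr 1; funext x; ring
    have h3 : ∫ x, psi u x ^ 2 * (pd i F x * pd i f x)
        = ∫ x, (psi u x ^ 2 * pd i f x) * pd i F x := by
      congr 1; funext x; ring
    rw [h2, h3, h1, neg_neg]
  have i1 : ∀ i : Fin n, Integrable (fun x => F x * pd i (fun y => psi u y ^ 2 * pd i f y) x) :=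
    fun i => (hF.continuous.mul (continuous_pd (hg i))).integrable_of_hasCompactSupport hc.mul_right
  have i2 : ∀ i : Fin n, Integrable (fun x => psi u x ^ 2 * (pd i F x * pd i f x)) := fun i => by
    refine Continuous.integrable_of_hasCompactSupport ?_ ?_
    · exact (hψ.continuous.pow 2).mul
        ((continuous_pd hF).mul (continuous_pd (hf.of_le (by norm_num))))
    · exact ((hasCompactSupport_pd hc).mul_right).mul_left
  have l1 : (fun x => F x * wdiv u f x)
      = fun x => ∑ i, F x * pd i (fun y => psi u y ^ 2 * pd i f y) x := by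
    funext x; unfold wdiv; rw [Finset.mul_sum]
  have l2 : (fun x => psi u x ^ 2 * ∑ i, pd i F x * pd i f x)
      = fun x => ∑ i, psi u x ^ 2 * (pd i F x * pd i f x) := by
    funext x; rw [Finset.mul_sum]
  rw [l1, l2, integral_finsetSum _ fun i _ => i1 i, integral_finsetSum _ fun i _ => i2 i,
    ← Finset.sum_neg_distrib]
  exact Finset.sum_congr rfl fun i _ => e1 i

/-- symmetric version: the other function has compact support -/
lemma int_wdiv' (hψ : ContDiff ℝ 1 (psi u)) (hf : ContDiff ℝ 1 f) (hF : ContDiff ℝ 2 F)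
    (hc : HasCompactSupport F) :
    ∫ x, f x * wdiv u F x = - ∫ x, psi u x ^ 2 * ∑ i, pd i F x * pd i f x := by
  have hg : ∀ i, ContDiff ℝ 1 (fun y => psi u y ^ 2 * pd i F y) := fun i =>
    (hψ.pow 2).mul (contDiff_pd_one hF)
  have hgc : ∀ i : Fin n, HasCompactSupport (fun y => psi u y ^ 2 * pd i F y) := fun i =>
    (hasCompactSupport_pd hc).mul_left
  have e1 : ∀ i : Fin n, ∫ x, f x * pd i (fun y => psi u y ^ 2 * pd i F y) x
      = - ∫ x, psi u x ^ 2 * (pd i F x * pd i f x) := by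
    intro i
    have h1 := integral_mul_pd (i := i) hf (hg i) (hgc i)
    rw [h1]
    congr 2; funext x; ring
  have i1 : ∀ i : Fin n, Integrable (fun x => f x * pd i (fun y => psi u y ^ 2 * pd i F y) x) :=
    fun i => (hf.continuous.mul (continuous_pd (hg i))).integrable_of_hasCompactSupport
      (hasCompactSupport_pd (hgc i)).mul_left
  have i2 : ∀ i : Fin n, Integrable (fun x => psi u x ^ 2 * (pd i F x * pd i f x)) := fun i => by
    refine Continuous.integrable_of_hasCompactSupport ?_ ?_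
    · exact (hψ.continuous.pow 2).mul
        ((continuous_pd (hF.of_le (by norm_num))).mul (continuous_pd hf))
    · exact ((hasCompactSupport_pd hc).mul_right).mul_left
  have l1 : (fun x => f x * wdiv u F x)
      = fun x => ∑ i, f x * pd i (fun y => psi u y ^ 2 * pd i F y) x := by
    funext x; unfold wdiv; rw [Finset.mul_sum]
  have l2 : (fun x => psi u x ^ 2 * ∑ i, pd i F x * pd i f x)
      = fun x => ∑ i, psi u x ^ 2 * (pd i F x * pd i f x) := by
    funext x; rw [Finset.mul_sum]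
  rw [l1, l2, integral_finsetSum _ fun i _ => i1 i, integral_finsetSum _ fun i _ => i2 i,
    ← Finset.sum_neg_distrib]
  exact Finset.sum_congr rfl fun i _ => e1 i

/-- Green's formula -/
lemma int_wdiv_comm (hψ : ContDiff ℝ 1 (psi u)) (hf : ContDiff ℝ 2 f) (hF : ContDiff ℝ 2 F)
    (hc : HasCompactSupport F) :
    ∫ x, F x * wdiv u f x = ∫ x, f x * wdiv u F x := by
  rw [int_wdiv hψ hf (hF.of_le (by norm_num)) hc, int_wdiv' hψ (hf.of_le (by norm_num)) hF hc]

/-- product rule for the weighted divergence -/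
lemma wdiv_mul (hψ : ContDiff ℝ 1 (psi u)) (hf : ContDiff ℝ 2 f) (hg : ContDiff ℝ 2 g)
    (x : Fin n → ℝ) :
    wdiv u (fun y => f y * g y) x = f x * wdiv u g x + g x * wdiv u f x
      + 2 * psi u x ^ 2 * ∑ i, pd i f x * pd i g x := by
  have df : Differentiable ℝ f := hf.differentiable (by norm_num)
  have dg : Differentiable ℝ g := hg.differentiable (by norm_num)
  have dfi : ∀ i, Differentiable ℝ (pd i f) := fun i =>
    (contDiff_pd_one hf).differentiable (by norm_num)
  have dgi : ∀ i, Differentiable ℝ (pd i g) := fun i =>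
    (contDiff_pd_one hg).differentiable (by norm_num)
  rw [wdiv_eq hψ (hf.mul hg), wdiv_eq hψ hf, wdiv_eq hψ hg]
  have e1 : ∀ i, pd i (fun y => f y * g y) = fun y => f y * pd i g y + pd i f y * g y := fun i => by
    funext y; rw [pd_mul (df y) (dg y)]; ring
  have e2 : ∀ i, pd i (pd i (fun y => f y * g y)) x = f x * pd i (pd i g) x
      + 2 * (pd i f x * pd i g x) + g x * pd i (pd i f) x := by
    intro i
    rw [e1 i, pd_add ((df x).fun_mul (dgi i x)) ((dfi i x).fun_mul (dg x)),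
      pd_mul (df x) (dgi i x), pd_mul (dfi i x) (dg x)]
    ring
  simp_rw [e2, e1]
  simp_rw [Finset.sum_add_distrib, mul_add, Finset.sum_add_distrib, ← Finset.mul_sum]
  have e3 : ∀ i, pd i (psi u) x * (f x * pd i g x) = f x * (pd i (psi u) x * pd i g x) := fun i => by ring
  have e4 : ∀ i, pd i (psi u) x * (pd i f x * g x) = g x * (pd i (psi u) x * pd i f x) := fun i => by ring
  simp_rw [e3, e4, ← Finset.mul_sum]
  ring

end Vale.Agent.P134.H239
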