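import Vale.Agent.P134.H239.Cut
import Vale.Agent.P134.SM.Ident

/-! # P134 / M4-A5 (helper239): the D-lemma (Step 1 of the blueprint). -/

open MeasureTheory Filter Topology

namespace Vale.Agent.P134.H239

open Vale.Agent.P134

variable {n : ℕ} {u f g h ζ Z F G η : (Fin n → ℝ) → ℝ} {x : Fin n → ℝ} {i j : Fin n}
  {C R l L : ℝ}

/-- `∑ |∂_j q|` -/
noncomputable def gq (u : (Fin n → ℝ) → ℝ) (x : Fin n → ℝ) : ℝ := ∑ j, |pd j (qq u) x|

lemma gq_nonneg : 0 ≤ gq u x := Finset.sum_nonneg fun _ _ => abs_nonneg _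

/-! ### Comparison of integrals -/

lemma int_le_box {r : ℝ} (hF : Continuous F) (hG : Continuous G) (h0 : ∀ x, x ∉ box n r → F x = 0)
    (hle : ∀ x ∈ box n r, F x ≤ G x) : ∫ x, F x ≤ ∫ x in box n r, G x := by
  have hm : MeasurableSet (box n r) := (isCompact_box r).measurableSet
  have h1 : ∫ x, F x = ∫ x in box n r, F x := by
    rw [setIntegral_eq_integral_of_forall_compl_eq_zero fun x hx => h0 x hx]
  rw [h1]
  exact setIntegral_mono_on (hF.continuousOn.integrableOn_compact (isCompact_box r))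
    (hG.continuousOn.integrableOn_compact (isCompact_box r)) hm hle

lemma box_le_int {r : ℝ} (hF : Continuous F) (hG : Continuous G) (hc : HasCompactSupport F)
    (h0 : ∀ x, 0 ≤ F x) (hle : ∀ x ∈ box n r, G x ≤ F x) :
    ∫ x in box n r, G x ≤ ∫ x, F x := by
  have hm : MeasurableSet (box n r) := (isCompact_box r).measurableSet
  have h1 : ∫ x in box n r, F x ≤ ∫ x, F x :=
    setIntegral_le_integral (hF.integrable_of_hasCompactSupport hc)
      (Filter.Eventually.of_forall h0)
  exact (setIntegral_mono_on (hG.continuousOn.integrableOn_compact (isCompact_box r))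
    (hF.continuousOn.integrableOn_compact (isCompact_box r)) hm hle).trans h1

lemma box_int_le {r : ℝ} (hF : Continuous F) (hG : Continuous G)
    (hle : ∀ x ∈ box n r, F x ≤ G x) : ∫ x in box n r, F x ≤ ∫ x in box n r, G x := by
  have hm : MeasurableSet (box n r) := (isCompact_box r).measurableSet
  exact setIntegral_mono_on (hF.continuousOn.integrableOn_compact (isCompact_box r))
    (hG.continuousOn.integrableOn_compact (isCompact_box r)) hm hle

lemma box_mono {r s : ℝ} (h : r ≤ s) : box n r ⊆ box n s := fun x hx => by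
  rw [mem_box] at hx ⊢
  exact fun i => (hx i).trans h

lemma box_int_mono {r s : ℝ} (h : r ≤ s) (hF : Continuous F) (h0 : ∀ x, 0 ≤ F x) :
    ∫ x in box n r, F x ≤ ∫ x in box n s, F x :=
  setIntegral_mono_set (hF.continuousOn.integrableOn_compact (isCompact_box s))
    (Filter.Eventually.of_forall h0) (Filter.Eventually.of_forall (box_mono h))

lemma box_int_nonneg {r : ℝ} (h0 : ∀ x, 0 ≤ F x) : 0 ≤ ∫ x in box n r, F x :=
  integral_nonneg h0

lemma box_int_const {r : ℝ} (hr : 0 ≤ r) (c : ℝ) : ∫ _x in box n r, c = (2 * r) ^ n * c := by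
  rw [setIntegral_const, smul_eq_mul]
  congr 1
  exact volume_box hr

/-! ### Pointwise estimates -/

/-- standing assumptions -/
structure Std (u : (Fin n → ℝ) → ℝ) : Prop where
  st : DStab u
  lt : ∀ x, |u x| < 1

namespace Std

variable (H : Std u)
include H

lemma sol : Sol u := H.st.toSol
lemma c3 : ContDiff ℝ 3 u := by exact_mod_cast SM.Sol.contDiff_nat H.sol 3
lemma dd3 : ContDiff ℝ 3 (dd u) := dd_contDiff H.c3 H.lt
lemma psi2 : ContDiff ℝ 2 (psi u) := psi_contDiff (H.c3.of_le (by norm_num))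
lemma psi1 : ContDiff ℝ 1 (psi u) := H.psi2.of_le (by norm_num)
lemma psic : Continuous (psi u) := H.psi1.continuous
lemma qq2 : ContDiff ℝ 2 (qq u) := by
  unfold qq
  exact contDiff_const.sub (ContDiff.sum fun i _ =>
    (contDiff_pd (k := 2) (by exact_mod_cast H.dd3)).pow 2)
lemma qq1 : ContDiff ℝ 1 (qq u) := H.qq2.of_le (by norm_num)
lemma qqc : Continuous (qq u) := H.qq1.continuous
lemma hhc : Continuous (hh u) := by
  unfold hh
  refine continuous_finsetSum _ fun i _ => continuous_finsetSum _ fun j _ => Continuous.pow ?_ 2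
  exact continuous_pd (contDiff_pd_one (H.dd3.of_le (by norm_num)))
lemma gqc : Continuous (gq u) := by
  unfold gq
  exact continuous_finsetSum _ fun j _ => (continuous_pd H.qq1).abs
lemma psi_pos (x : Fin n → ℝ) : 0 < psi u x := psi_pos_of (H.lt x)
omit H in
lemma psi_le (x : Fin n → ℝ) : psi u x ≤ 1 := psi_le_one u x
lemma q0 (x : Fin n → ℝ) : 0 ≤ qq u x := qq_nonneg H.sol (H.lt x)
omit H in
lemma q1 (_x : Fin n → ℝ) : qq u _x ≤ 1 := qq_le_one

lemma sum_dd_le (x : Fin n → ℝ) : ∑ i, pd i (dd u) x ^ 2 ≤ 1 := by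
  have := H.q0 x
  unfold qq at this
  linarith

lemma abs_pd_dd (i : Fin n) (x : Fin n → ℝ) : |pd i (dd u) x| ≤ 1 := by
  have h1 := H.sum_dd_le x
  have h2 : pd i (dd u) x ^ 2 ≤ ∑ i, pd i (dd u) x ^ 2 :=
    Finset.single_le_sum (f := fun i => pd i (dd u) x ^ 2) (fun _ _ => sq_nonneg _)
      (Finset.mem_univ i)
  exact (sq_le_one_iff_abs_le_one _).mp (h2.trans h1)

lemma abs_pd_psi (i : Fin n) (x : Fin n → ℝ) : |pd i (psi u) x| ≤ 2 * psi u x := by
  rw [pd_psi_dd H.sol H.lt, abs_neg, abs_mul, abs_mul, abs_mul, abs_of_pos (H.psi_pos x),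
    abs_of_pos (Real.sqrt_pos.mpr (by norm_num : (0:ℝ) < 2))]
  have h1 : √2 ≤ (2:ℝ) := by
    rw [Real.sqrt_le_left (by norm_num)]; norm_num
  have h2 := H.abs_pd_dd i x
  have h3 := (H.lt x).le
  have h4 := (H.psi_pos x).le
  calc √2 * |u x| * psi u x * |pd i (dd u) x| ≤ 2 * 1 * psi u x * 1 := by gcongr
    _ = 2 * psi u x := by ring

lemma sum_pd_qq_sq (x : Fin n → ℝ) : ∑ j, pd j (qq u) x ^ 2 ≤ 4 * hh u x := by
  unfold hh
  rw [Finset.mul_sum]
  refine Finset.sum_le_sum fun j _ => ?_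
  rw [pd_qq H.sol.c2 H.lt]
  have h1 := Finset.sum_mul_sq_le_sq_mul_sq Finset.univ (fun i => pd i (dd u) x)
    (fun i => pd j (pd i (dd u)) x)
  have h2 := H.sum_dd_le x
  have h3 : 0 ≤ ∑ i, pd j (pd i (dd u)) x ^ 2 := Finset.sum_nonneg fun _ _ => sq_nonneg _
  nlinarith

lemma gq_sq (x : Fin n → ℝ) : gq u x ^ 2 ≤ 4 * n * hh u x := by
  have h1 : gq u x ^ 2 ≤ n * ∑ j, pd j (qq u) x ^ 2 := by
    unfold gq
    have := Finset.sum_mul_sq_le_sq_mul_sq (Finset.univ : Finset (Fin n))
      (fun j => |pd j (qq u) x|) (fun _ => 1)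
    simp only [mul_one, sq_abs, one_pow, Finset.sum_const, Finset.card_univ, Fintype.card_fin,
      nsmul_eq_mul] at this
    linarith
  have h2 := H.sum_pd_qq_sq x
  have h3 : (n:ℝ) * ∑ j, pd j (qq u) x ^ 2 ≤ n * (4 * hh u x) :=
    mul_le_mul_of_nonneg_left h2 (Nat.cast_nonneg n)
  linarith

/-- `|∇q| ≤ 2 n t |D²d|² + 1 / (2 t)` -/
lemma gq_le {t : ℝ} (ht : 0 < t) (x : Fin n → ℝ) :
    gq u x ≤ 2 * n * t * hh u x + 1 / (2 * t) := by
  have h1 := H.gq_sq x
  have h2 : 0 ≤ (t * gq u x - 1) ^ 2 := sq_nonneg _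
  have h3 : gq u x ≤ (t * gq u x ^ 2 + 1 / t) / 2 := by
    have : (t * gq u x ^ 2 + 1 / t) / 2 - gq u x = (t * gq u x - 1) ^ 2 / (2 * t) := by
      field_simp; ring
    have h4 : 0 ≤ (t * gq u x - 1) ^ 2 / (2 * t) := by positivity
    linarith
  have h5 : t * gq u x ^ 2 ≤ t * (4 * n * hh u x) := mul_le_mul_of_nonneg_left h1 ht.le
  have h6 : 1 / (2 * t) = 1 / t / 2 := by field_simp
  rw [h6]
  linarith

lemma abs_wdiv_cutoff (hc : Cutoff C R ζ) (hC : 0 ≤ C) (hR : 1 ≤ R) (x : Fin n → ℝ) :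
    |wdiv u ζ x| ≤ 5 * n * C / R * psi u x ^ 2 := by
  have hψ := H.psi_pos x
  have hR0 : 0 < R := by linarith
  rw [wdiv_eq H.psi1 (hc.c3.of_le (by norm_num))]
  have h1 : |∑ i, pd i (pd i ζ) x| ≤ n * (C / R) := by
    refine (Finset.abs_sum_le_sum_abs _ _).trans ?_
    calc ∑ i, |pd i (pd i ζ) x| ≤ ∑ _i : Fin n, C / R := by
          refine Finset.sum_le_sum fun i _ => (hc.b2 i i x).trans ?_
          exact div_le_div_of_nonneg_left hC hR0 (by nlinarith)
      _ = n * (C / R) := by simp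
  have h2 : |∑ i, pd i (psi u) x * pd i ζ x| ≤ n * (2 * psi u x * (C / R)) := by
    refine (Finset.abs_sum_le_sum_abs _ _).trans ?_
    calc ∑ i, |pd i (psi u) x * pd i ζ x| ≤ ∑ _i : Fin n, 2 * psi u x * (C / R) := by
          refine Finset.sum_le_sum fun i _ => ?_
          rw [abs_mul]
          exact mul_le_mul (H.abs_pd_psi i x) (hc.b1 i x) (abs_nonneg _) (by positivity)
      _ = n * (2 * psi u x * (C / R)) := by simp
  calc |psi u x ^ 2 * ∑ i, pd i (pd i ζ) x + 2 * psi u x * ∑ i, pd i (psi u) x * pd i ζ x|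
      ≤ |psi u x ^ 2 * ∑ i, pd i (pd i ζ) x| + |2 * psi u x * ∑ i, pd i (psi u) x * pd i ζ x| :=
        abs_add_le _ _
    _ = psi u x ^ 2 * |∑ i, pd i (pd i ζ) x| + 2 * psi u x * |∑ i, pd i (psi u) x * pd i ζ x| := by
        rw [abs_mul, abs_mul, abs_of_pos (by positivity : 0 < psi u x ^ 2),
          abs_of_pos (by positivity : 0 < 2 * psi u x)]
    _ ≤ psi u x ^ 2 * (n * (C / R)) + 2 * psi u x * (n * (2 * psi u x * (C / R))) := by gcongr
    _ = 5 * n * C / R * psi u x ^ 2 := by ring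

omit H in
lemma abs_inner_cutoff (hc : Cutoff C R ζ) (x : Fin n → ℝ) :
    |∑ i, pd i ζ x * pd i (qq u) x| ≤ C / R * gq u x := by
  refine (Finset.abs_sum_le_sum_abs _ _).trans ?_
  unfold gq
  rw [Finset.mul_sum]
  refine Finset.sum_le_sum fun i _ => ?_
  rw [abs_mul]
  exact mul_le_mul_of_nonneg_right (hc.b1 i x) (abs_nonneg _)

/-! ### Step (1a) -/

lemma stab_q (hη : ContDiff ℝ 1 η) (hc : HasCompactSupport η) :
    ∫ x, psi u x ^ 3 * qq u x * η x ^ 2 ≤ ∫ x, psi u x ^ 2 * ∑ j, pd j η x ^ 2 := by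
  have h := H.st.ineq η hη hc
  rw [← integral_const_mul] at h
  refine le_trans (le_of_eq ?_) h
  congr 1
  funext x
  have := psi_sq_qq (H.sol.c2.differentiable (by norm_num)) (H.lt x)
  linear_combination (psi u x * η x ^ 2) * this

lemma hess_bound (hη : ContDiff ℝ 2 η) (hc : HasCompactSupport η) :
    ∫ x, psi u x ^ 2 * hh u x * η x ^ 2 ≤ 6 * ∫ x, psi u x ^ 2 * ∑ j, pd j η x ^ 2 := by
  have hη1 : ContDiff ℝ 1 η := hη.of_le (by norm_num)
  have hη2 : ContDiff ℝ 2 (fun x => η x ^ 2) := hη.pow 2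
  have hc2 : HasCompactSupport (fun x => η x ^ 2) := hcs_sq hc
  have dη : Differentiable ℝ η := hη1.differentiable (by norm_num)
  have h1 := int_wdiv H.psi1 H.qq2 (hη2.of_le (by norm_num)) hc2
  -- integrability
  have i1 : Integrable (fun x => psi u x ^ 3 * qq u x * η x ^ 2) :=
    (((H.psic.pow 3).mul H.qqc).mul (hη.continuous.pow 2)).integrable_of_hasCompactSupport
      hc2.mul_left
  have i2 : Integrable (fun x => psi u x ^ 2 * hh u x * η x ^ 2) :=
    (((H.psic.pow 2).mul H.hhc).mul (hη.continuous.pow 2)).integrable_of_hasCompactSupport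
      hc2.mul_left
  have i3 : Integrable (fun x => psi u x ^ 2 * ∑ j, pd j η x ^ 2) := by
    refine Continuous.integrable_of_hasCompactSupport ?_ ?_
    · exact (H.psic.pow 2).mul (continuous_finsetSum _ fun j _ => (continuous_pd hη1).pow 2)
    · refine HasCompactSupport.mul_left ?_
      refine hc.mono' ?_
      intro x hx
      by_contra hx'
      apply hx
      simp only
      refine Finset.sum_eq_zero fun j _ => ?_
      rw [pd_eq_zero_of_notMem_tsupport hx']
      norm_num
  have i4 : Integrable (fun x => psi u x ^ 2 * ∑ i, pd i (fun x => η x ^ 2) x * pd i (qq u) x) := by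
    refine Continuous.integrable_of_hasCompactSupport ?_ ?_
    · exact (H.psic.pow 2).mul (continuous_finsetSum _ fun j _ =>
        (continuous_pd (hη2.of_le (by norm_num))).mul (continuous_pd H.qq1))
    · refine HasCompactSupport.mul_left ?_
      refine hc.mono' ?_
      intro x hx
      by_contra hx'
      apply hx
      simp only
      refine Finset.sum_eq_zero fun j _ => ?_
      rw [pd_sq (dη x), pd_eq_zero_of_notMem_tsupport hx']
      ring
  have hst := H.stab_q hη1 hc
  -- `2 ∫ η² ψ² hh = 2 ∫ η² ψ³ q (1 - q) - ∫ η² wdiv q`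
  have e1 : ∀ x, 2 * (psi u x ^ 2 * hh u x * η x ^ 2)
      ≤ 2 * (psi u x ^ 3 * qq u x * η x ^ 2) - η x ^ 2 * wdiv u (qq u) x := by
    intro x
    rw [wdiv_qq H.sol H.c3 H.lt]
    have h2 : 0 ≤ psi u x ^ 3 * qq u x ^ 2 * η x ^ 2 := by
      have := (H.psi_pos x).le
      positivity
    nlinarith
  have e2 : ∀ x, |psi u x ^ 2 * ∑ i, pd i (fun x => η x ^ 2) x * pd i (qq u) x|
      ≤ psi u x ^ 2 * hh u x * η x ^ 2 + 4 * (psi u x ^ 2 * ∑ j, pd j η x ^ 2) := by
    intro x
    rw [abs_mul, abs_of_nonneg (sq_nonneg (psi u x))]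
    have e3 : ∑ i, pd i (fun x => η x ^ 2) x * pd i (qq u) x
        = 2 * η x * ∑ i, pd i η x * pd i (qq u) x := by
      rw [Finset.mul_sum]
      refine Finset.sum_congr rfl fun i _ => ?_
      rw [pd_sq (dη x)]; ring
    have e4 : (∑ i, pd i η x * pd i (qq u) x) ^ 2 ≤ (∑ j, pd j η x ^ 2) * (4 * hh u x) := by
      refine (Finset.sum_mul_sq_le_sq_mul_sq _ _ _).trans ?_
      exact mul_le_mul_of_nonneg_left (H.sum_pd_qq_sq x)
        (Finset.sum_nonneg fun _ _ => sq_nonneg _)
    have e5 : |∑ i, pd i (fun x => η x ^ 2) x * pd i (qq u) x|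
        ≤ hh u x * η x ^ 2 + 4 * ∑ j, pd j η x ^ 2 := by
      rw [e3]
      have a1 : 0 ≤ hh u x * η x ^ 2 := mul_nonneg hh_nonneg (sq_nonneg _)
      have a2 : 0 ≤ ∑ j, pd j η x ^ 2 := Finset.sum_nonneg fun _ _ => sq_nonneg _
      apply abs_le_of_sq_le_sq _ (by positivity)
      have a3 : (2 * η x * ∑ i, pd i η x * pd i (qq u) x) ^ 2
          ≤ 4 * η x ^ 2 * ((∑ j, pd j η x ^ 2) * (4 * hh u x)) := by
        have : (2 * η x * ∑ i, pd i η x * pd i (qq u) x) ^ 2
          = 4 * η x ^ 2 * (∑ i, pd i η x * pd i (qq u) x) ^ 2 := by ring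
        rw [this]
        exact mul_le_mul_of_nonneg_left e4 (by positivity)
      nlinarith [sq_nonneg (hh u x * η x ^ 2 - 4 * ∑ j, pd j η x ^ 2)]
    calc psi u x ^ 2 * |∑ i, pd i (fun x => η x ^ 2) x * pd i (qq u) x|
        ≤ psi u x ^ 2 * (hh u x * η x ^ 2 + 4 * ∑ j, pd j η x ^ 2) :=
          mul_le_mul_of_nonneg_left e5 (sq_nonneg _)
      _ = _ := by ring
  have i5 : Integrable (fun x => η x ^ 2 * wdiv u (qq u) x) := by
    refine Continuous.integrable_of_hasCompactSupport ?_ hc2.mul_right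
    refine (hη.continuous.pow 2).mul ?_
    have : wdiv u (qq u) = fun x => psi u x ^ 2 * (2 * psi u x * qq u x * (1 - qq u x) - 2 * hh u x) := by
      funext x; exact wdiv_qq H.sol H.c3 H.lt x
    rw [this]
    have := H.psic
    have := H.qqc
    have := H.hhc
    fun_prop
  have s1 : 2 * ∫ x, psi u x ^ 2 * hh u x * η x ^ 2
      ≤ 2 * (∫ x, psi u x ^ 3 * qq u x * η x ^ 2) - ∫ x, η x ^ 2 * wdiv u (qq u) x := by
    rw [← integral_const_mul, ← integral_const_mul, ← integral_sub (i1.const_mul 2) i5]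
    exact integral_mono (i2.const_mul 2) ((i1.const_mul 2).sub i5) e1
  have s2 : - ∫ x, η x ^ 2 * wdiv u (qq u) x
      ≤ (∫ x, psi u x ^ 2 * hh u x * η x ^ 2) + 4 * ∫ x, psi u x ^ 2 * ∑ j, pd j η x ^ 2 := by
    rw [h1, neg_neg, ← integral_const_mul, ← integral_add i2 (i3.const_mul 4)]
    exact integral_mono i4 (i2.add (i3.const_mul 4)) fun x => (le_abs_self _).trans (e2 x)
  linarith

/-! ### Step (1b), the main inequality -/

lemma box_stab (hc : Cutoff C R ζ) :
    ∫ x in box n R, psi u x ^ 3 * qq u x ≤ n * (C / R) ^ 2 * ∫ x in box n (2 * R), psi u x ^ 2 := by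
  have hζ1 : ContDiff ℝ 1 ζ := hc.c3.of_le (by norm_num)
  have h1 := H.stab_q hζ1 hc.hcs
  have h2 : ∫ x in box n R, psi u x ^ 3 * qq u x ≤ ∫ x, psi u x ^ 3 * qq u x * ζ x ^ 2 := by
    refine box_le_int (((H.psic.pow 3).mul H.qqc).mul (hζ1.continuous.pow 2))
      ((H.psic.pow 3).mul H.qqc) (hcs_sq hc.hcs).mul_left (fun x => ?_) fun x hx => ?_
    · have := H.psi_pos x
      have := H.q0 x
      positivity
    · rw [hc.one x hx]; linarith
  have h3 : ∫ x, psi u x ^ 2 * ∑ j, pd j ζ x ^ 2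
      ≤ ∫ x in box n (2 * R), n * (C / R) ^ 2 * psi u x ^ 2 := by
    refine int_le_box ?_ (continuous_const.mul (H.psic.pow 2)) (fun x hx => ?_) fun x _ => ?_
    · exact (H.psic.pow 2).mul (continuous_finsetSum _ fun j _ => (continuous_pd hζ1).pow 2)
    · simp_rw [hc.pd_zero hx]; simp
    · have : ∑ j, pd j ζ x ^ 2 ≤ ∑ _j : Fin n, (C / R) ^ 2 := by
        refine Finset.sum_le_sum fun j _ => ?_
        rw [← sq_abs]
        exact pow_le_pow_left₀ (abs_nonneg _) (hc.b1 j x) 2
      rw [Finset.sum_const, Finset.card_univ, Fintype.card_fin, nsmul_eq_mul] at this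
      nlinarith [sq_nonneg (psi u x)]
  rw [integral_const_mul] at h3
  linarith

lemma box_hess (hc : Cutoff C R ζ) :
    ∫ x in box n R, psi u x ^ 2 * hh u x
      ≤ 6 * (n * (C / R) ^ 2 * ∫ x in box n (2 * R), psi u x ^ 2) := by
  have hζ1 : ContDiff ℝ 1 ζ := hc.c3.of_le (by norm_num)
  have h1 := H.hess_bound (hc.c3.of_le (by norm_num)) hc.hcs
  have h2 : ∫ x in box n R, psi u x ^ 2 * hh u x ≤ ∫ x, psi u x ^ 2 * hh u x * ζ x ^ 2 := by
    refine box_le_int (((H.psic.pow 2).mul H.hhc).mul (hζ1.continuous.pow 2))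
      ((H.psic.pow 2).mul H.hhc) (hcs_sq hc.hcs).mul_left (fun x => ?_) fun x hx => ?_
    · have := H.psi_pos x
      have := hh_nonneg (u := u) (x := x)
      positivity
    · rw [hc.one x hx]; linarith
  have h3 : ∫ x, psi u x ^ 2 * ∑ j, pd j ζ x ^ 2
      ≤ ∫ x in box n (2 * R), n * (C / R) ^ 2 * psi u x ^ 2 := by
    refine int_le_box ?_ (continuous_const.mul (H.psic.pow 2)) (fun x hx => ?_) fun x _ => ?_
    · exact (H.psic.pow 2).mul (continuous_finsetSum _ fun j _ => (continuous_pd hζ1).pow 2)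
    · simp_rw [hc.pd_zero hx]; simp
    · have : ∑ j, pd j ζ x ^ 2 ≤ ∑ _j : Fin n, (C / R) ^ 2 := by
        refine Finset.sum_le_sum fun j _ => ?_
        rw [← sq_abs]
        exact pow_le_pow_left₀ (abs_nonneg _) (hc.b1 j x) 2
      rw [Finset.sum_const, Finset.card_univ, Fintype.card_fin, nsmul_eq_mul] at this
      nlinarith [sq_nonneg (psi u x)]
  rw [integral_const_mul] at h3
  linarith

lemma box_gq {t : ℝ} (ht : 0 < t) (r : ℝ) :
    ∫ x in box n r, psi u x ^ 2 * gq u x
      ≤ 2 * n * t * (∫ x in box n r, psi u x ^ 2 * hh u x)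
        + 1 / (2 * t) * ∫ x in box n r, psi u x ^ 2 := by
  have cψ := H.psic
  have ch := H.hhc
  have cg := H.gqc
  have ib : ∀ {G : (Fin n → ℝ) → ℝ}, Continuous G → IntegrableOn G (box n r) := fun hG =>
    hG.continuousOn.integrableOn_compact (isCompact_box _)
  have e1 : ∫ x in box n r, (2 * n * t * (psi u x ^ 2 * hh u x) + 1 / (2 * t) * psi u x ^ 2)
      = 2 * n * t * (∫ x in box n r, psi u x ^ 2 * hh u x)
        + 1 / (2 * t) * ∫ x in box n r, psi u x ^ 2 := by
    rw [integral_add (ib (by fun_prop)) (ib (by fun_prop)), integral_const_mul, integral_const_mul]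
  rw [← e1]
  refine box_int_le (by fun_prop) (by fun_prop) fun x _ => ?_
  have := mul_le_mul_of_nonneg_left (H.gq_le ht x) (sq_nonneg (psi u x))
  linarith

omit H in
lemma wdiv_sub_const (hf : Differentiable ℝ f) (c : ℝ) (x : Fin n → ℝ) :
    wdiv u (fun y => f y - c) x = wdiv u f x := by
  have : ∀ i, pd i (fun y => f y - c) = pd i f := fun i => by
    funext y
    rw [pd_sub (hf y) (by fun_prop), pd_const, sub_zero]
  unfold wdiv
  simp_rw [this]

lemma main_ineq (hc : Cutoff C R ζ) (hC : 0 ≤ C) (hR : 1 ≤ R) (hl : 0 < l)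
    (hL : Real.log (1 + l) - Real.log l ≤ L) :
    2 * ∫ x in box n R, psi u x ^ 2 * qq u x
      ≤ 2 * (4 * R) ^ n * l + 5 * (∫ x in box n (2 * R), psi u x ^ 3 * qq u x)
        + L * (2 * (∫ x in box n (2 * R), psi u x ^ 2 * hh u x)
          + 5 * n * C / R * (∫ x in box n (2 * R), psi u x ^ 2 * qq u x)
          + 2 * C / R * ∫ x in box n (2 * R), psi u x ^ 2 * gq u x) := by
  have hR0 : 0 < R := by linarith
  have hζ2 : ContDiff ℝ 2 ζ := hc.c3.of_le (by norm_num)
  have hζ1 : ContDiff ℝ 1 ζ := hc.c3.of_le (by norm_num)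
  have cζ : Continuous ζ := hζ1.continuous
  have cψ := H.psic
  have cq := H.qqc
  have ch := H.hhc
  have cg := H.gqc
  have hψl : ∀ y, 0 < psi u y + l := fun y => by have := H.psi_pos y; linarith
  set Z0 : (Fin n → ℝ) → ℝ := fun y => Real.log (psi u y + l) with hZ0
  have hZ0c : ContDiff ℝ 2 Z0 := (H.psi2.add contDiff_const).log fun y => (hψl y).ne'
  set Z : (Fin n → ℝ) → ℝ := fun y => Z0 y - Real.log (1 + l) with hZ
  have hZc : ContDiff ℝ 2 Z := hZ0c.sub contDiff_const
  have hZ_nonpos : ∀ x, Z x ≤ 0 := fun x => by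
    have := Real.log_le_log (hψl x) (by have := psi_le_one u x; linarith : psi u x + l ≤ 1 + l)
    simp only [hZ, hZ0]; linarith
  have hZ_ge : ∀ x, - L ≤ Z x := fun x => by
    have := Real.log_le_log hl (by have := H.psi_pos x; linarith : l ≤ psi u x + l)
    simp only [hZ, hZ0]; linarith
  have hL0 : 0 ≤ L := by
    have h1 := hZ_ge 0
    have h2 := hZ_nonpos 0
    linarith
  set F : (Fin n → ℝ) → ℝ := fun y => ζ y * qq u y with hF
  have hF2 : ContDiff ℝ 2 F := hζ2.mul H.qq2
  have hFc : HasCompactSupport F := hc.hcs.mul_right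
  have hgreen := int_wdiv_comm H.psi1 hZc hF2 hFc
  -- left hand side
  have hwZc : Continuous (wdiv u Z) := by
    unfold wdiv
    refine continuous_finsetSum _ fun i _ => continuous_pd ?_
    exact (H.psi1.pow 2).mul (contDiff_pd_one hZc)
  have hwFc : Continuous (wdiv u F) := by
    unfold wdiv
    refine continuous_finsetSum _ fun i _ => continuous_pd ?_
    exact (H.psi1.pow 2).mul (contDiff_pd_one hF2)
  have hwZ : ∀ x, wdiv u Z x = wdiv u Z0 x := fun x =>
    wdiv_sub_const (hZ0c.differentiable (by norm_num)) _ x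
  -- step A : 2 ζ q ψ² ≤ F wdiv Z + 1_{2R} (5 q ψ³ + 2 l)
  have hA : ∫ x, (2 * (ζ x * (psi u x ^ 2 * qq u x)) - F x * wdiv u Z x)
      ≤ ∫ x in box n (2 * R), (5 * (psi u x ^ 3 * qq u x) + 2 * l) := by
    refine int_le_box ?_ ?_ (fun x hx => ?_) fun x _ => ?_
    · have := hFc.isCompact
      have : Continuous F := hF2.continuous
      fun_prop
    · fun_prop
    · simp only [hF]; rw [hc.zero x hx]; ring
    · rw [hwZ]
      have h1 := wdiv_log H.sol H.lt hl x
      have h2 : (0:ℝ) ≤ ζ x * qq u x := mul_nonneg (hc.nonneg x) (H.q0 x)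
      have h3 := mul_le_mul_of_nonneg_left h1 h2
      have h4 := H.psi_pos x
      have h5 := psi_le_one u x
      have h6 : psi u x ^ 2 = psi u x / (psi u x + l) * psi u x ^ 2
          + l * (psi u x * (psi u x / (psi u x + l))) := by
        have := (hψl x).ne'
        field_simp
      have h7 : psi u x / (psi u x + l) ≤ 1 := (div_le_one (hψl x)).mpr (by linarith)
      have h7' : 0 ≤ psi u x / (psi u x + l) := by positivity
      have h8 : psi u x * (psi u x / (psi u x + l)) ≤ 1 := mul_le_one₀ h5 h7' h7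
      have h9 : ζ x * qq u x ≤ 1 := mul_le_one₀ (hc.le_one x) (H.q0 x) (qq_le_one (u := u) (x := x))
      have h10 : (ζ x * qq u x) * (l * (psi u x * (psi u x / (psi u x + l)))) ≤ l := by
        have a1 : l * (psi u x * (psi u x / (psi u x + l))) ≤ l := by
          nlinarith
        have a2 : 0 ≤ l * (psi u x * (psi u x / (psi u x + l))) := by positivity
        calc (ζ x * qq u x) * (l * (psi u x * (psi u x / (psi u x + l))))
            ≤ 1 * (l * (psi u x * (psi u x / (psi u x + l)))) := mul_le_mul_of_nonneg_right h9 a2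
          _ ≤ l := by linarith
      have h11 : ζ x * qq u x * (5 * psi u x ^ 3) ≤ 5 * (psi u x ^ 3 * qq u x) := by
        have a1 : 0 ≤ psi u x ^ 3 * qq u x := mul_nonneg (by positivity) (H.q0 x)
        nlinarith [hc.le_one x]
      have h12 : 2 * (ζ x * (psi u x ^ 2 * qq u x))
          = ζ x * qq u x * (2 * (psi u x / (psi u x + l)) * psi u x ^ 2)
            + 2 * ((ζ x * qq u x) * (l * (psi u x * (psi u x / (psi u x + l))))) := by
        linear_combination (2 * ζ x * qq u x) * h6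
      simp only [hF]
      rw [h12]
      rw [mul_sub] at h3
      linarith
  -- step B
  have hB : ∫ x, Z x * wdiv u F x
      ≤ ∫ x in box n (2 * R), L * (2 * (psi u x ^ 2 * hh u x)
        + 5 * n * C / R * (psi u x ^ 2 * qq u x) + 2 * C / R * (psi u x ^ 2 * gq u x)) := by
    refine int_le_box (hZc.continuous.mul hwFc) (by fun_prop) (fun x hx => ?_) fun x _ => ?_
    · have : wdiv u F x = 0 := by
        rw [hF, wdiv_mul H.psi1 hζ2 H.qq2, hc.zero x hx, wdiv_eq H.psi1 hζ2]
        simp_rw [hc.pd_zero hx, hc.pd_pd_zero hx]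
        simp
      rw [this, mul_zero]
    · rw [hF, wdiv_mul H.psi1 hζ2 H.qq2, wdiv_qq H.sol H.c3 H.lt]
      have h1 := H.abs_wdiv_cutoff hc hC hR x
      have h2 := abs_inner_cutoff (u := u) hc x
      have h4 := (H.psi_pos x).le
      have hq := H.q0 x
      have hq1 := qq_le_one (u := u) (x := x)
      have hh0 := hh_nonneg (u := u) (x := x)
      have t1 : Z x * (ζ x * (psi u x ^ 2 * (2 * psi u x * qq u x * (1 - qq u x) - 2 * hh u x)))
          ≤ L * (2 * (psi u x ^ 2 * hh u x)) := by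
        have a1 : 0 ≤ ζ x * (psi u x ^ 2 * (2 * psi u x * qq u x * (1 - qq u x))) := by
          have := hc.nonneg x
          have : 0 ≤ 1 - qq u x := by linarith
          positivity
        have a2 : 0 ≤ psi u x ^ 2 * hh u x := by positivity
        have a3 : ζ x * (psi u x ^ 2 * hh u x) ≤ psi u x ^ 2 * hh u x := by
          nlinarith [hc.le_one x]
        have a4 : 0 ≤ ζ x * (psi u x ^ 2 * hh u x) := mul_nonneg (hc.nonneg x) a2
        have a5 := hZ_nonpos x
        have a6 := hZ_ge x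
        nlinarith
      have t2 : Z x * (qq u x * wdiv u ζ x) ≤ L * (5 * n * C / R * (psi u x ^ 2 * qq u x)) := by
        have a1 : |Z x * (qq u x * wdiv u ζ x)| ≤ L * (qq u x * (5 * n * C / R * psi u x ^ 2)) := by
          rw [abs_mul, abs_mul, abs_of_nonneg hq]
          have b1 : |Z x| ≤ L := abs_le.mpr ⟨hZ_ge x, (hZ_nonpos x).trans hL0⟩
          exact mul_le_mul b1 (mul_le_mul_of_nonneg_left h1 hq) (by positivity) hL0
        refine (le_abs_self _).trans (a1.trans (le_of_eq ?_))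
        ring
      have t3 : Z x * (2 * psi u x ^ 2 * ∑ i, pd i ζ x * pd i (qq u) x)
          ≤ L * (2 * C / R * (psi u x ^ 2 * gq u x)) := by
        have a1 : |Z x * (2 * psi u x ^ 2 * ∑ i, pd i ζ x * pd i (qq u) x)|
            ≤ L * (2 * psi u x ^ 2 * (C / R * gq u x)) := by
          rw [abs_mul, abs_mul, abs_of_nonneg (by positivity : 0 ≤ 2 * psi u x ^ 2)]
          have b1 : |Z x| ≤ L := abs_le.mpr ⟨hZ_ge x, (hZ_nonpos x).trans hL0⟩
          exact mul_le_mul b1 (mul_le_mul_of_nonneg_left h2 (by positivity)) (by positivity) hL0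
        refine (le_abs_self _).trans (a1.trans (le_of_eq ?_))
        ring
      have : Z x * (ζ x * (psi u x ^ 2 * (2 * psi u x * qq u x * (1 - qq u x) - 2 * hh u x))
          + qq u x * wdiv u ζ x + 2 * psi u x ^ 2 * ∑ i, pd i ζ x * pd i (qq u) x)
          = Z x * (ζ x * (psi u x ^ 2 * (2 * psi u x * qq u x * (1 - qq u x) - 2 * hh u x)))
          + Z x * (qq u x * wdiv u ζ x)
          + Z x * (2 * psi u x ^ 2 * ∑ i, pd i ζ x * pd i (qq u) x) := by ring
      rw [this, mul_add, mul_add]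
      linarith
  -- step C : left hand side
  have hCc : ∫ x in box n R, 2 * (psi u x ^ 2 * qq u x) ≤ ∫ x, 2 * (ζ x * (psi u x ^ 2 * qq u x)) := by
    refine box_le_int (by fun_prop) (by fun_prop) ?_ (fun x => ?_) fun x hx => ?_
    · exact (hc.hcs.mul_right).mul_left
    · have := hc.nonneg x
      have := H.q0 x
      positivity
    · rw [hc.one x hx]; linarith
  have iA : Integrable (fun x => 2 * (ζ x * (psi u x ^ 2 * qq u x))) :=
    Continuous.integrable_of_hasCompactSupport (by fun_prop) (hc.hcs.mul_right).mul_left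
  have iB : Integrable (fun x => F x * wdiv u Z x) :=
    (hF2.continuous.mul hwZc).integrable_of_hasCompactSupport hFc.mul_right
  rw [integral_sub iA iB, hgreen] at hA
  have ib : ∀ {G : (Fin n → ℝ) → ℝ}, Continuous G → IntegrableOn G (box n (2 * R)) := fun hG =>
    hG.continuousOn.integrableOn_compact (isCompact_box _)
  have e1 : ∫ x in box n (2 * R), (5 * (psi u x ^ 3 * qq u x) + 2 * l)
      = 5 * (∫ x in box n (2 * R), psi u x ^ 3 * qq u x) + 2 * (4 * R) ^ n * l := by
    rw [integral_add (ib (by fun_prop)) (ib (by fun_prop)), integral_const_mul,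
      box_int_const (by linarith)]
    ring
  have e2 : ∫ x in box n (2 * R), L * (2 * (psi u x ^ 2 * hh u x)
        + 5 * n * C / R * (psi u x ^ 2 * qq u x) + 2 * C / R * (psi u x ^ 2 * gq u x))
      = L * (2 * (∫ x in box n (2 * R), psi u x ^ 2 * hh u x)
          + 5 * n * C / R * (∫ x in box n (2 * R), psi u x ^ 2 * qq u x)
          + 2 * C / R * ∫ x in box n (2 * R), psi u x ^ 2 * gq u x) := by
    rw [integral_const_mul, integral_add (ib (by fun_prop)) (ib (by fun_prop)),
      integral_add (ib (by fun_prop)) (ib (by fun_prop)), integral_const_mul, integral_const_mul,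
      integral_const_mul]
  rw [e1] at hA
  rw [e2] at hB
  rw [integral_const_mul] at hCc
  linarith

end Std

end Vale.Agent.P134.H239
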