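import Vale.Agent.P134.H239.DLemma

/-! # P134 / M4-A5 (helper239): the D-lemma, second half and assembly. -/

open MeasureTheory Filter Topology

namespace Vale.Agent.P134.H239

open Vale.Agent.P134

variable {n : ℕ} {u f g h ζ Z F G η : (Fin n → ℝ) → ℝ} {x : Fin n → ℝ} {i j : Fin n}
  {C R l L m C0 : ℝ}

namespace Std

variable (H : Std u)
include H

/-! ### Step (1c) -/

lemma grad_ineq (hc : Cutoff C R ζ) (hm : 0 < m)
    (hL : Real.log (1 + m) - Real.log m ≤ L) :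
    ∫ x in box n R, psi u x ^ 2 * ((∑ j, pd j (qq u) x ^ 2) / (qq u x + m))
      ≤ L * (2 * (∫ x in box n (2 * R), psi u x ^ 3 * qq u x)
        + C / R * ∫ x in box n (2 * R), psi u x ^ 2 * gq u x) := by
  have hζ2 : ContDiff ℝ 2 ζ := hc.c3.of_le (by norm_num)
  have hζ1 : ContDiff ℝ 1 ζ := hc.c3.of_le (by norm_num)
  have cζ : Continuous ζ := hζ1.continuous
  have cψ := H.psic
  have cq := H.qqc
  have ch := H.hhc
  have cg := H.gqc
  have dζ : Differentiable ℝ ζ := hζ1.differentiable (by norm_num)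
  have dq : Differentiable ℝ (qq u) := H.qq1.differentiable (by norm_num)
  have hqm : ∀ y, 0 < qq u y + m := fun y => by have := H.q0 y; linarith
  set Y : (Fin n → ℝ) → ℝ := fun y => Real.log (qq u y + m) - Real.log (1 + m) with hY
  have hYc : ContDiff ℝ 2 Y :=
    ((H.qq2.add contDiff_const).log fun y => (hqm y).ne').sub contDiff_const
  have hYd : Differentiable ℝ Y := hYc.differentiable (by norm_num)
  have cY : Continuous Y := hYc.continuous
  have hY_nonpos : ∀ x, Y x ≤ 0 := fun x => by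
    have := Real.log_le_log (hqm x)
      (by have := qq_le_one (u := u) (x := x); linarith : qq u x + m ≤ 1 + m)
    simp only [hY]; linarith
  have hY_ge : ∀ x, - L ≤ Y x := fun x => by
    have := Real.log_le_log hm (by have := H.q0 x; linarith : m ≤ qq u x + m)
    simp only [hY]; linarith
  have hL0 : 0 ≤ L := by
    have h1 := hY_ge 0
    have h2 := hY_nonpos 0
    linarith
  have hYabs : ∀ x, |Y x| ≤ L := fun x => abs_le.mpr ⟨hY_ge x, (hY_nonpos x).trans hL0⟩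
  have hpdY : ∀ i x, pd i Y x = pd i (qq u) x / (qq u x + m) := by
    intro i x
    have e : Y = fun y => (fun t : ℝ => Real.log (t + m) - Real.log (1 + m)) (qq u y) := rfl
    have hd : HasDerivAt (fun t : ℝ => Real.log (t + m) - Real.log (1 + m)) (1 / (qq u x + m))
        (qq u x) :=
      (((hasDerivAt_id (qq u x)).add_const m).log (hqm x).ne').sub_const _
    rw [e, pd_comp hd.differentiableAt (dq x), hd.deriv]
    ring
  set F : (Fin n → ℝ) → ℝ := fun y => ζ y * Y y with hF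
  have hF2 : ContDiff ℝ 2 F := hζ2.mul hYc
  have hFc : HasCompactSupport F := hc.hcs.mul_right
  have hgreen := int_wdiv H.psi1 H.qq2 (hF2.of_le (by norm_num)) hFc
  have cwq : Continuous (wdiv u (qq u)) := by
    unfold wdiv
    refine continuous_finsetSum _ fun i _ => continuous_pd ?_
    exact (H.psi1.pow 2).mul (contDiff_pd_one H.qq2)
  have cG : Continuous fun x => ∑ j, pd j (qq u) x ^ 2 :=
    continuous_finsetSum _ fun j _ => (continuous_pd H.qq1).pow 2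
  have cI : Continuous fun x => ∑ i, pd i ζ x * pd i (qq u) x :=
    continuous_finsetSum _ fun j _ => (continuous_pd hζ1).mul (continuous_pd H.qq1)
  have cV : Continuous fun x => psi u x ^ 2 * ((∑ j, pd j (qq u) x ^ 2) / (qq u x + m)) :=
    (cψ.pow 2).mul (cG.div (by fun_prop) fun x => (hqm x).ne')
  -- expand the Dirichlet form
  have e1 : ∀ x, psi u x ^ 2 * ∑ i, pd i F x * pd i (qq u) x
      = ζ x * (psi u x ^ 2 * ((∑ j, pd j (qq u) x ^ 2) / (qq u x + m)))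
        + psi u x ^ 2 * (Y x * ∑ i, pd i ζ x * pd i (qq u) x) := by
    intro x
    have : ∑ i, pd i F x * pd i (qq u) x
        = ζ x * ((∑ j, pd j (qq u) x ^ 2) / (qq u x + m)) + Y x * ∑ i, pd i ζ x * pd i (qq u) x := by
      rw [Finset.sum_div, Finset.mul_sum, Finset.mul_sum, ← Finset.sum_add_distrib]
      refine Finset.sum_congr rfl fun i _ => ?_
      rw [hF, pd_mul (dζ x) (hYd x), hpdY]
      ring
    rw [this]; ring
  simp_rw [e1] at hgreen
  have i1 : Integrable (fun x => ζ x * (psi u x ^ 2 * ((∑ j, pd j (qq u) x ^ 2) / (qq u x + m)))) :=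
    (cζ.mul cV).integrable_of_hasCompactSupport hc.hcs.mul_right
  have hcI : HasCompactSupport fun x => ∑ i, pd i ζ x * pd i (qq u) x := by
    refine HasCompactSupport.intro (isCompact_box (2 * R)) fun x hx => ?_
    refine Finset.sum_eq_zero fun i _ => ?_
    rw [hc.pd_zero hx, zero_mul]
  have i2 : Integrable (fun x => psi u x ^ 2 * (Y x * ∑ i, pd i ζ x * pd i (qq u) x)) :=
    ((cψ.pow 2).mul (cY.mul cI)).integrable_of_hasCompactSupport (hcI.mul_left).mul_left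
  have i3 : Integrable (fun x => F x * wdiv u (qq u) x) :=
    (hF2.continuous.mul cwq).integrable_of_hasCompactSupport hFc.mul_right
  rw [integral_add i1 i2] at hgreen
  -- lower bound of the left side
  have hCc : ∫ x in box n R, psi u x ^ 2 * ((∑ j, pd j (qq u) x ^ 2) / (qq u x + m))
      ≤ ∫ x, ζ x * (psi u x ^ 2 * ((∑ j, pd j (qq u) x ^ 2) / (qq u x + m))) := by
    refine box_le_int (cζ.mul cV) cV hc.hcs.mul_right (fun x => ?_) fun x hx => ?_
    · have a1 := hc.nonneg x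
      have a2 := hqm x
      have a3 : 0 ≤ ∑ j, pd j (qq u) x ^ 2 := Finset.sum_nonneg fun _ _ => sq_nonneg _
      positivity
    · rw [hc.one x hx, one_mul]
  have hB : ∫ x, (- (F x * wdiv u (qq u) x)
        - psi u x ^ 2 * (Y x * ∑ i, pd i ζ x * pd i (qq u) x))
      ≤ ∫ x in box n (2 * R), L * (2 * (psi u x ^ 3 * qq u x) + C / R * (psi u x ^ 2 * gq u x)) := by
    refine int_le_box ?_ (by fun_prop) (fun x hx => ?_) fun x _ => ?_
    · exact (hF2.continuous.mul cwq).neg.sub ((cψ.pow 2).mul (cY.mul cI))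
    · simp only [hF]
      rw [hc.zero x hx]
      simp_rw [hc.pd_zero hx]
      simp
    · have h2 := abs_inner_cutoff (u := u) hc x
      have h4 := (H.psi_pos x).le
      have hq := H.q0 x
      have hq1 := qq_le_one (u := u) (x := x)
      have hh0 := hh_nonneg (u := u) (x := x)
      have t1 : - (F x * wdiv u (qq u) x) ≤ L * (2 * (psi u x ^ 3 * qq u x)) := by
        rw [wdiv_qq H.sol H.c3 H.lt]
        have a0 := hc.nonneg x
        have a1 : 0 ≤ (- Y x) := by have := hY_nonpos x; linarith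
        have a2 : - Y x ≤ L := by have := hY_ge x; linarith
        have a3 : 0 ≤ psi u x ^ 3 * qq u x := by positivity
        have a4 : - (F x * (psi u x ^ 2 * (2 * psi u x * qq u x * (1 - qq u x) - 2 * hh u x)))
            = (ζ x * (- Y x)) * (2 * (psi u x ^ 3 * qq u x) * (1 - qq u x))
              - (ζ x * (- Y x)) * (psi u x ^ 2 * (2 * hh u x)) := by
          simp only [hF]; ring
        have a5 : 0 ≤ (ζ x * (- Y x)) * (psi u x ^ 2 * (2 * hh u x)) := by positivity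
        have a6 : ζ x * (- Y x) ≤ L := by
          calc ζ x * (- Y x) ≤ 1 * (- Y x) := mul_le_mul_of_nonneg_right (hc.le_one x) a1
            _ ≤ L := by linarith
        have a7 : 2 * (psi u x ^ 3 * qq u x) * (1 - qq u x) ≤ 2 * (psi u x ^ 3 * qq u x) := by
          nlinarith
        have a8 : 0 ≤ 1 - qq u x := by linarith
        have a9 : (ζ x * (- Y x)) * (2 * (psi u x ^ 3 * qq u x) * (1 - qq u x))
            ≤ L * (2 * (psi u x ^ 3 * qq u x)) :=
          mul_le_mul a6 a7 (by positivity) hL0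
        rw [a4]
        linarith
      have t2 : - (psi u x ^ 2 * (Y x * ∑ i, pd i ζ x * pd i (qq u) x))
          ≤ L * (C / R * (psi u x ^ 2 * gq u x)) := by
        have a1 : |psi u x ^ 2 * (Y x * ∑ i, pd i ζ x * pd i (qq u) x)|
            ≤ psi u x ^ 2 * (L * (C / R * gq u x)) := by
          rw [abs_mul, abs_mul, abs_of_nonneg (by positivity : 0 ≤ psi u x ^ 2)]
          exact mul_le_mul_of_nonneg_left (mul_le_mul (hYabs x) h2 (abs_nonneg _) hL0)
            (by positivity)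
        have a2 := neg_le_abs (psi u x ^ 2 * (Y x * ∑ i, pd i ζ x * pd i (qq u) x))
        calc _ ≤ _ := a2
          _ ≤ _ := a1
          _ = _ := by ring
      rw [mul_add]
      linarith
  have e2 : ∫ x, (- (F x * wdiv u (qq u) x) - psi u x ^ 2 * (Y x * ∑ i, pd i ζ x * pd i (qq u) x))
      = - (∫ x, F x * wdiv u (qq u) x)
        - ∫ x, psi u x ^ 2 * (Y x * ∑ i, pd i ζ x * pd i (qq u) x) := by
    have i3n : Integrable (fun x => - (F x * wdiv u (qq u) x)) := i3.neg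
    rw [integral_sub i3n i2, integral_neg]
  have ib : ∀ {G : (Fin n → ℝ) → ℝ}, Continuous G → IntegrableOn G (box n (2 * R)) := fun hG =>
    hG.continuousOn.integrableOn_compact (isCompact_box _)
  have e3 : ∫ x in box n (2 * R), L * (2 * (psi u x ^ 3 * qq u x) + C / R * (psi u x ^ 2 * gq u x))
      = L * (2 * (∫ x in box n (2 * R), psi u x ^ 3 * qq u x)
        + C / R * ∫ x in box n (2 * R), psi u x ^ 2 * gq u x) := by
    rw [integral_const_mul, integral_add (ib (by fun_prop)) (ib (by fun_prop)),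
      integral_const_mul, integral_const_mul]
  rw [e2, e3] at hB
  linarith

lemma gq_le' (hm : 0 < m) (x : Fin n → ℝ) :
    gq u x ≤ (∑ j, pd j (qq u) x ^ 2) / (qq u x + m) / 2 + n * (qq u x + m) / 2 := by
  have hqm : 0 < qq u x + m := by have := H.q0 x; linarith
  have h1 : ∀ j, |pd j (qq u) x| ≤ pd j (qq u) x ^ 2 / (qq u x + m) / 2 + (qq u x + m) / 2 := by
    intro j
    have h2 : pd j (qq u) x ^ 2 / (qq u x + m) / 2 + (qq u x + m) / 2 - |pd j (qq u) x|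
        = (|pd j (qq u) x| - (qq u x + m)) ^ 2 / (2 * (qq u x + m)) := by
      rw [← sq_abs (pd j (qq u) x)]
      field_simp; ring
    have h3 : 0 ≤ (|pd j (qq u) x| - (qq u x + m)) ^ 2 / (2 * (qq u x + m)) := by positivity
    linarith
  unfold gq
  calc ∑ j, |pd j (qq u) x|
      ≤ ∑ j : Fin n, (pd j (qq u) x ^ 2 / (qq u x + m) / 2 + (qq u x + m) / 2) :=
        Finset.sum_le_sum fun j _ => h1 j
    _ = _ := by
        rw [Finset.sum_add_distrib, ← Finset.sum_div, ← Finset.sum_div, Finset.sum_const,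
          Finset.card_univ, Fintype.card_fin, nsmul_eq_mul]
        ring

lemma box_gq' (hm : 0 < m) (r : ℝ) :
    ∫ x in box n r, psi u x ^ 2 * gq u x
      ≤ (∫ x in box n r, psi u x ^ 2 * ((∑ j, pd j (qq u) x ^ 2) / (qq u x + m))) / 2
        + n / 2 * ((∫ x in box n r, psi u x ^ 2 * qq u x) + m * ∫ x in box n r, psi u x ^ 2) := by
  have cψ := H.psic
  have cq := H.qqc
  have cg := H.gqc
  have hqm : ∀ y, 0 < qq u y + m := fun y => by have := H.q0 y; linarith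
  have cG : Continuous fun x => ∑ j, pd j (qq u) x ^ 2 :=
    continuous_finsetSum _ fun j _ => (continuous_pd H.qq1).pow 2
  have cV : Continuous fun x => psi u x ^ 2 * ((∑ j, pd j (qq u) x ^ 2) / (qq u x + m)) :=
    (cψ.pow 2).mul (cG.div (by fun_prop) fun x => (hqm x).ne')
  have ib : ∀ {G : (Fin n → ℝ) → ℝ}, Continuous G → IntegrableOn G (box n r) := fun hG =>
    hG.continuousOn.integrableOn_compact (isCompact_box _)
  have e1 : ∫ x in box n r, (1 / 2 * (psi u x ^ 2 * ((∑ j, pd j (qq u) x ^ 2) / (qq u x + m)))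
        + n / 2 * (psi u x ^ 2 * qq u x + m * psi u x ^ 2))
      = (∫ x in box n r, psi u x ^ 2 * ((∑ j, pd j (qq u) x ^ 2) / (qq u x + m))) / 2
        + n / 2 * ((∫ x in box n r, psi u x ^ 2 * qq u x) + m * ∫ x in box n r, psi u x ^ 2) := by
    rw [integral_add (ib (by fun_prop)) (ib (by fun_prop)), integral_const_mul, integral_const_mul,
      integral_add (ib (by fun_prop)) (ib (by fun_prop)), integral_const_mul]
    ring
  rw [← e1]
  refine box_int_le (by fun_prop) (by fun_prop) fun x _ => ?_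
  have := mul_le_mul_of_nonneg_left (H.gq_le' hm x) (sq_nonneg (psi u x))
  linarith

/-! ### gradient of the deficit -/

lemma defi_eq_qq : defi u = fun x => psi u x ^ 2 * qq u x / 2 := by
  funext x
  have := psi_sq_qq (H.sol.c2.differentiable (by norm_num)) (H.lt x)
  linarith

lemma defi_contDiff : ContDiff ℝ 2 (defi u) := by
  rw [H.defi_eq_qq]
  exact ((H.psi2.pow 2).mul H.qq2).div_const 2

lemma sum_pd_defi_le (x : Fin n → ℝ) :
    ∑ j, |pd j (defi u) x| ≤ 2 * n * (psi u x ^ 2 * qq u x) + psi u x ^ 2 * gq u x / 2 := by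
  have dψ : Differentiable ℝ (psi u) := H.psi1.differentiable (by norm_num)
  have dq : Differentiable ℝ (qq u) := H.qq1.differentiable (by norm_num)
  have e : ∀ j, pd j (defi u) x = psi u x * pd j (psi u) x * qq u x
      + psi u x ^ 2 * pd j (qq u) x / 2 := by
    intro j
    have : defi u = fun x => (psi u x ^ 2 * qq u x) * (1 / 2) := by
      rw [H.defi_eq_qq]; funext x; ring
    rw [this, pd_mul (f := fun x => psi u x ^ 2 * qq u x) (((dψ x).fun_pow 2).fun_mul (dq x))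
      (by fun_prop), pd_const, pd_mul ((dψ x).fun_pow 2) (dq x), pd_sq (dψ x)]
    ring
  have h4 := (H.psi_pos x).le
  have hq := H.q0 x
  have h1 : ∀ j, |pd j (defi u) x| ≤ 2 * (psi u x ^ 2 * qq u x) + psi u x ^ 2 / 2 * |pd j (qq u) x| := by
    intro j
    rw [e j]
    refine (abs_add_le _ _).trans ?_
    have a1 : |psi u x * pd j (psi u) x * qq u x| ≤ 2 * (psi u x ^ 2 * qq u x) := by
      rw [abs_mul, abs_mul, abs_of_nonneg h4, abs_of_nonneg hq]
      have := H.abs_pd_psi j x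
      calc psi u x * |pd j (psi u) x| * qq u x ≤ psi u x * (2 * psi u x) * qq u x := by gcongr
        _ = _ := by ring
    have a2 : |psi u x ^ 2 * pd j (qq u) x / 2| = psi u x ^ 2 / 2 * |pd j (qq u) x| := by
      rw [abs_div, abs_mul, abs_of_nonneg (by positivity : 0 ≤ psi u x ^ 2)]
      norm_num
      ring
    rw [a2]
    linarith
  calc ∑ j, |pd j (defi u) x|
      ≤ ∑ j : Fin n, (2 * (psi u x ^ 2 * qq u x) + psi u x ^ 2 / 2 * |pd j (qq u) x|) :=
        Finset.sum_le_sum fun j _ => h1 j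
    _ = _ := by
        rw [Finset.sum_add_distrib, Finset.sum_const, Finset.card_univ,
          Fintype.card_fin, nsmul_eq_mul, ← Finset.mul_sum]
        unfold gq
        ring

/-! ### Step (1d) -/

omit H in
lemma mul_log_le {t : ℝ} (h0 : 0 < t) (h2 : t ≤ 2) : t * |Real.log t| ≤ 2 := by
  rcases le_total t 1 with h | h
  · have h1 : Real.log t ≤ 0 := Real.log_nonpos h0.le h
    rw [abs_of_nonpos h1]
    have h3 : 1 - t⁻¹ ≤ Real.log t := Real.one_sub_inv_le_log_of_pos h0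
    have h4 : t * (- Real.log t) ≤ t * (t⁻¹ - 1) :=
      mul_le_mul_of_nonneg_left (by linarith) h0.le
    have h5 : t * (t⁻¹ - 1) = 1 - t := by field_simp
    linarith
  · have h1 : 0 ≤ Real.log t := Real.log_nonneg h
    rw [abs_of_nonneg h1]
    have h3 : Real.log t ≤ t - 1 := Real.log_le_sub_one_of_pos h0
    nlinarith

lemma psi_abs_dd (x : Fin n → ℝ) : psi u x * |dd u x| ≤ 8 := by
  have h1 := abs_lt.mp (H.lt x)
  have hp : (0:ℝ) < 1 + u x := by linarith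
  have hm : (0:ℝ) < 1 - u x := by linarith
  have h2 : (1:ℝ) ≤ √2 := by
    rw [show (1:ℝ) = √1 by simp]
    exact Real.sqrt_le_sqrt (by norm_num)
  have h3 : |dd u x| ≤ |Real.log (1 + u x)| + |Real.log (1 - u x)| := by
    unfold dd
    rw [abs_div, abs_of_pos (by linarith : (0:ℝ) < √2)]
    have a1 := abs_sub (Real.log (1 + u x)) (Real.log (1 - u x))
    have a2 : 0 ≤ |Real.log (1 + u x) - Real.log (1 - u x)| := abs_nonneg _
    calc |Real.log (1 + u x) - Real.log (1 - u x)| / √2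
        ≤ |Real.log (1 + u x) - Real.log (1 - u x)| := div_le_self a2 h2
      _ ≤ _ := a1
  have h4 := mul_log_le hp (by linarith)
  have h5 := mul_log_le hm (by linarith)
  have hψ : psi u x = (1 + u x) * (1 - u x) := by unfold psi; ring
  have h6 := (H.psi_pos x).le
  calc psi u x * |dd u x| ≤ psi u x * (|Real.log (1 + u x)| + |Real.log (1 - u x)|) :=
        mul_le_mul_of_nonneg_left h3 h6
    _ = (1 - u x) * ((1 + u x) * |Real.log (1 + u x)|)
        + (1 + u x) * ((1 - u x) * |Real.log (1 - u x)|) := by rw [hψ]; ring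
    _ ≤ 2 * 2 + 2 * 2 := by
        refine add_le_add ?_ ?_
        · exact mul_le_mul (by linarith) h4 (by positivity) (by norm_num)
        · exact mul_le_mul (by linarith) h5 (by positivity) (by norm_num)
    _ = 8 := by norm_num

omit H in
lemma prof_nonneg {t : ℝ} (ht : 0 ≤ t) (ht1 : t < 1) :
    0 ≤ (Real.log (1 + t) - Real.log (1 - t)) / √2 := by
  have := Real.log_le_log (by linarith : (0:ℝ) < 1 - t) (by linarith : 1 - t ≤ 1 + t)
  have : 0 ≤ Real.log (1 + t) - Real.log (1 - t) := by linarith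
  positivity

omit H in
lemma prof_le {t : ℝ} (ht : 0 ≤ t) (ht1 : t < 1) :
    (Real.log (1 + t) - Real.log (1 - t)) / √2
      ≤ 2 * (t * ((Real.log (1 + t) - Real.log (1 - t)) / √2)) + 2 := by
  have h0 := prof_nonneg ht ht1
  rcases le_total (1 / 2) t with h | h
  · nlinarith
  · have h2 : (1:ℝ) ≤ √2 := by
      rw [show (1:ℝ) = √1 by simp]
      exact Real.sqrt_le_sqrt (by norm_num)
    have a1 : Real.log (1 + t) ≤ t := by
      have := Real.log_le_sub_one_of_pos (by linarith : (0:ℝ) < 1 + t); linarith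
    have a2 : 1 - (1 - t)⁻¹ ≤ Real.log (1 - t) := Real.one_sub_inv_le_log_of_pos (by linarith)
    have a3 : (1 - t)⁻¹ ≤ 2 := by
      rw [inv_le_comm₀ (by linarith) (by norm_num)]
      linarith
    have a4 : (Real.log (1 + t) - Real.log (1 - t)) / √2 ≤ 2 := by
      rw [div_le_iff₀ (by linarith)]
      nlinarith
    have a5 := mul_nonneg ht h0
    linarith

/-- `|d| ≤ 2 u d + 2` -/
lemma abs_dd_le (x : Fin n → ℝ) : |dd u x| ≤ 2 * (u x * dd u x) + 2 ∧ 0 ≤ u x * dd u x := by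
  have h1 := abs_lt.mp (H.lt x)
  rcases le_total 0 (u x) with h | h
  · have a1 : 0 ≤ dd u x := prof_nonneg h h1.2
    rw [abs_of_nonneg a1]
    exact ⟨prof_le h h1.2, mul_nonneg h a1⟩
  · have e : dd u x = - ((Real.log (1 + (- u x)) - Real.log (1 - (- u x))) / √2) := by
      unfold dd
      rw [sub_neg_eq_add, ← sub_eq_add_neg]
      ring
    have a1 := prof_nonneg (t := - u x) (by linarith) (by linarith)
    have a2 := prof_le (t := - u x) (by linarith) (by linarith)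
    rw [e, abs_neg, abs_of_nonneg a1]
    refine ⟨?_, ?_⟩
    · linarith
    · have := mul_nonneg (by linarith : 0 ≤ - u x) a1
      linarith

lemma dist_ineq (hc : Cutoff C R ζ) (hC : 0 ≤ C) (hR : 1 ≤ R) :
    ∫ x in box n R, psi u x ^ 2 * |dd u x|
      ≤ 4 * (∫ x in box n (2 * R), psi u x ^ 2) + 320 * n * C / R * (4 * R) ^ n := by
  have hR0 : 0 < R := by linarith
  have hζ2 : ContDiff ℝ 2 ζ := hc.c3.of_le (by norm_num)
  have hζ1 : ContDiff ℝ 1 ζ := hc.c3.of_le (by norm_num)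
  have cζ : Continuous ζ := hζ1.continuous
  have cψ := H.psic
  have cq := H.qqc
  have cd : Continuous (dd u) := H.dd3.continuous
  have hd2 : ContDiff ℝ 2 (fun y => dd u y ^ 2) := (H.dd3.of_le (by norm_num)).pow 2
  have hgreen := int_wdiv_comm H.psi1 hd2 hζ2 hc.hcs
  have cwd : Continuous (wdiv u (fun y => dd u y ^ 2)) := by
    unfold wdiv
    refine continuous_finsetSum _ fun i _ => continuous_pd ?_
    exact (H.psi1.pow 2).mul (contDiff_pd_one hd2)
  have cwζ : Continuous (wdiv u ζ) := by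
    unfold wdiv
    refine continuous_finsetSum _ fun i _ => continuous_pd ?_
    exact (H.psi1.pow 2).mul (contDiff_pd_one hζ2)
  have i1 : Integrable (fun x => ζ x * psi u x ^ 2) :=
    Continuous.integrable_of_hasCompactSupport (by fun_prop) hc.hcs.mul_right
  have i2 : Integrable (fun x => ζ x * wdiv u (fun y => dd u y ^ 2) x) :=
    Continuous.integrable_of_hasCompactSupport (by fun_prop) hc.hcs.mul_right
  have i3 : Integrable (fun x => ζ x * (psi u x ^ 2 * |dd u x|)) :=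
    Continuous.integrable_of_hasCompactSupport (by fun_prop) hc.hcs.mul_right
  have h1 : ∫ x in box n R, psi u x ^ 2 * |dd u x| ≤ ∫ x, ζ x * (psi u x ^ 2 * |dd u x|) := by
    refine box_le_int (by fun_prop) (by fun_prop) hc.hcs.mul_right (fun x => ?_) fun x hx => ?_
    · have := hc.nonneg x
      positivity
    · rw [hc.one x hx, one_mul]
  have h2 : ∫ x, ζ x * (psi u x ^ 2 * |dd u x|)
      ≤ 4 * (∫ x, ζ x * psi u x ^ 2) - ∫ x, ζ x * wdiv u (fun y => dd u y ^ 2) x := by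
    rw [← integral_const_mul, ← integral_sub (i1.const_mul 4) i2]
    refine integral_mono i3 ((i1.const_mul 4).sub i2) fun x => ?_
    simp only
    rw [wdiv_dsq H.sol H.lt]
    obtain ⟨a1, a2⟩ := H.abs_dd_le x
    have hq := H.q0 x
    have hq1 := qq_le_one (u := u) (x := x)
    have s2 : (1:ℝ) ≤ √2 := by
      rw [show (1:ℝ) = √1 by simp]
      exact Real.sqrt_le_sqrt (by norm_num)
    have b1 : |dd u x| ≤ 4 - 2 * ((1 - qq u x) - √2 * u x * dd u x * (2 - qq u x)) := by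
      have c1 : u x * dd u x ≤ √2 * (u x * dd u x) := by nlinarith
      have c2 : √2 * (u x * dd u x) ≤ √2 * (u x * dd u x) * (2 - qq u x) := by
        have : 0 ≤ √2 * (u x * dd u x) := by positivity
        nlinarith
      nlinarith
    have b2 : 0 ≤ ζ x * psi u x ^ 2 := mul_nonneg (hc.nonneg x) (sq_nonneg _)
    have b3 := mul_le_mul_of_nonneg_left b1 b2
    nlinarith
  have h3 : ∫ x, ζ x * psi u x ^ 2 ≤ ∫ x in box n (2 * R), psi u x ^ 2 := by
    refine int_le_box (by fun_prop) (by fun_prop) (fun x hx => ?_) fun x _ => ?_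
    · rw [hc.zero x hx, zero_mul]
    · nlinarith [hc.le_one x, sq_nonneg (psi u x)]
  have h4 : ∫ x, - (dd u x ^ 2 * wdiv u ζ x) ≤ ∫ _x in box n (2 * R), 320 * n * C / R := by
    refine int_le_box (by fun_prop) (by fun_prop) (fun x hx => ?_) fun x _ => ?_
    · rw [wdiv_eq H.psi1 hζ2]
      simp_rw [hc.pd_zero hx, hc.pd_pd_zero hx]
      simp
    · have a1 := H.abs_wdiv_cutoff hc hC hR x
      have a2 := H.psi_abs_dd x
      have a3 := (H.psi_pos x).le
      have a4 : (psi u x * |dd u x|) ^ 2 ≤ 8 ^ 2 := pow_le_pow_left₀ (by positivity) a2 2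
      have a5 : |dd u x ^ 2 * wdiv u ζ x| ≤ dd u x ^ 2 * (5 * n * C / R * psi u x ^ 2) := by
        rw [abs_mul, abs_of_nonneg (sq_nonneg (dd u x))]
        exact mul_le_mul_of_nonneg_left a1 (sq_nonneg _)
      calc - (dd u x ^ 2 * wdiv u ζ x) ≤ |dd u x ^ 2 * wdiv u ζ x| := neg_le_abs _
        _ ≤ dd u x ^ 2 * (5 * n * C / R * psi u x ^ 2) := a5
        _ = 5 * n * C / R * (psi u x * |dd u x|) ^ 2 := by rw [mul_pow, sq_abs]; ring
        _ ≤ 5 * n * C / R * 8 ^ 2 := mul_le_mul_of_nonneg_left a4 (by positivity)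
        _ = 320 * n * C / R := by ring
  rw [integral_neg, box_int_const (by linarith)] at h4
  rw [hgreen] at h2
  have e : (2 * (2 * R)) ^ n * (320 * n * C / R) = 320 * n * C / R * (4 * R) ^ n := by ring
  rw [e] at h4
  linarith

end Std

/-! ### Assembly -/

lemma rec_arith {N C K1 K2 ℓ R a a2 S H X P : ℝ} (hN : 0 ≤ N) (hC : 0 ≤ C) (hK1 : 0 ≤ K1)
    (hK2 : 0 ≤ K2) (hℓ : 1 ≤ ℓ) (hR : 1 ≤ R) (ha2 : 0 ≤ a2) (hP : 0 ≤ P)
    (h1 : 2 * a ≤ 2 * P + 5 * S + (N + 1) * ℓ * (2 * H + 5 * N * C / R * a2 + 2 * C / R * X))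
    (hS : S ≤ K1 * (2 * R)) (hH : H ≤ K1 * (2 * R)) (hX : X ≤ K2 * (2 * R) ^ 2) :
    a ≤ (P + 5 * K1 + (N + 1) * (2 * K1 + 5 * N * C + 4 * C * K2)) * ℓ * (R + a2 / R) := by
  have hR0 : 0 < R := by linarith
  have b1 : (N + 1) * ℓ * (2 * H + 5 * N * C / R * a2 + 2 * C / R * X)
      ≤ (N + 1) * ℓ * (2 * (K1 * (2 * R)) + 5 * N * C / R * a2 + 2 * C / R * (K2 * (2 * R) ^ 2)) := by
    gcongr
  have e2 : (N + 1) * ℓ * (2 * (K1 * (2 * R)) + 5 * N * C / R * a2 + 2 * C / R * (K2 * (2 * R) ^ 2))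
      = (N + 1) * ℓ * ((4 * K1 + 8 * C * K2) * R + 5 * N * C * (a2 / R)) := by
    field_simp; ring
  have t0 : 0 ≤ a2 / R := by positivity
  have t1 : (1:ℝ) ≤ ℓ * R := by nlinarith
  have t2 : P ≤ P * (ℓ * R) := by nlinarith
  have t3 : R ≤ ℓ * R := by nlinarith
  have t4 : 5 * S ≤ 10 * K1 * (ℓ * R) := by
    have := mul_le_mul_of_nonneg_left t3 hK1
    linarith
  have e3 : 2 * ((P + 5 * K1 + (N + 1) * (2 * K1 + 5 * N * C + 4 * C * K2)) * ℓ * (R + a2 / R))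
      = 2 * P * (ℓ * R) + 10 * K1 * (ℓ * R)
        + (N + 1) * ℓ * ((4 * K1 + 8 * C * K2) * R + 5 * N * C * (a2 / R))
        + (2 * (P + 5 * K1) * (ℓ * (a2 / R))
          + (N + 1) * ℓ * ((10 * N * C) * R + (4 * K1 + 5 * N * C + 8 * C * K2) * (a2 / R))) := by
    ring
  have t5 : 0 ≤ 2 * (P + 5 * K1) * (ℓ * (a2 / R))
          + (N + 1) * ℓ * ((10 * N * C) * R + (4 * K1 + 5 * N * C + 8 * C * K2) * (a2 / R)) := by
    positivity
  linarith

lemma grad_arith {N C K1 K2 K5 c ℓ R a V S X X0 E : ℝ} (hN : 0 ≤ N) (hC : 0 ≤ C) (hK1 : 0 ≤ K1)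
    (hK2 : 0 ≤ K2) (hK5 : 0 ≤ K5) (hc : 0 ≤ c) (hℓ : 1 ≤ ℓ) (hR : 1 ≤ R)
    (h1 : V ≤ 3 * ℓ * (2 * S + C / R * X))
    (h2 : X0 ≤ V / 2 + N / 2 * (a + (R ^ 2)⁻¹ * E))
    (hS : S ≤ K1 * (2 * R)) (hX : X ≤ K2 * (2 * R) ^ 2) (ha : a ≤ K5 * ℓ ^ 2 * R)
    (hE : E ≤ c * R ^ 3) :
    X0 ≤ (2 * (4 * K1 + 4 * C * K2) + N * (K5 + c)) * ℓ ^ 2 * R := by
  have hR0 : 0 < R := by linarith
  have b1 : 3 * ℓ * (2 * S + C / R * X) ≤ 3 * ℓ * (2 * (K1 * (2 * R)) + C / R * (K2 * (2 * R) ^ 2)) := by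
    gcongr
  have e1 : 3 * ℓ * (2 * (K1 * (2 * R)) + C / R * (K2 * (2 * R) ^ 2))
      = 3 * (4 * K1 + 4 * C * K2) * (ℓ * R) := by
    field_simp; ring
  have b2 : (R ^ 2)⁻¹ * E ≤ c * R := by
    calc _ ≤ (R ^ 2)⁻¹ * (c * R ^ 3) := by gcongr
      _ = c * R := by field_simp
  have b3 : ℓ * R ≤ ℓ ^ 2 * R := by nlinarith [mul_nonneg (by linarith : 0 ≤ ℓ) hR0.le]
  have b4 : R ≤ ℓ ^ 2 * R := by nlinarith
  have b5 : 3 * (4 * K1 + 4 * C * K2) * (ℓ * R) ≤ 3 * (4 * K1 + 4 * C * K2) * (ℓ ^ 2 * R) := by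
    gcongr
  have b7 : c * R ≤ c * (ℓ ^ 2 * R) := by gcongr
  have b6 : N / 2 * (a + (R ^ 2)⁻¹ * E) ≤ N / 2 * (K5 * ℓ ^ 2 * R + c * (ℓ ^ 2 * R)) := by
    have : a + (R ^ 2)⁻¹ * E ≤ K5 * ℓ ^ 2 * R + c * (ℓ ^ 2 * R) := by linarith
    gcongr
  have e2 : (2 * (4 * K1 + 4 * C * K2) + N * (K5 + c)) * ℓ ^ 2 * R
      = 2 * (4 * K1 + 4 * C * K2) * (ℓ ^ 2 * R)
      + N * (K5 * ℓ ^ 2 * R + c * (ℓ ^ 2 * R)) := by ring
  have b8 : 0 ≤ N * (K5 * ℓ ^ 2 * R + c * (ℓ ^ 2 * R)) := by positivity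
  have b9 : 0 ≤ (4 * K1 + 4 * C * K2) * (ℓ ^ 2 * R) := by positivity
  linarith

lemma log_two_mul {R : ℝ} (hR : 1 ≤ R) : 1 + Real.log (2 * R) ≤ 2 * (1 + Real.log R) := by
  rw [Real.log_mul (by norm_num) (by linarith)]
  have h1 : Real.log 2 ≤ 1 := by
    have := Real.log_le_sub_one_of_pos (by norm_num : (0:ℝ) < 2); linarith
  have := Real.log_nonneg hR
  linarith

lemma log_inv_pow {R : ℝ} (k : ℕ) (hR : 1 ≤ R) :
    Real.log (1 + (R ^ k)⁻¹) - Real.log (R ^ k)⁻¹ ≤ (k + 1) * (1 + Real.log R) := by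
  have hRk : 1 ≤ R ^ k := one_le_pow₀ hR
  have h1 : (R ^ k)⁻¹ ≤ 1 := inv_le_one_of_one_le₀ hRk
  have h0 : 0 < (R ^ k)⁻¹ := by positivity
  have h2 : Real.log (1 + (R ^ k)⁻¹) ≤ (R ^ k)⁻¹ := by
    have := Real.log_le_sub_one_of_pos (by linarith : (0:ℝ) < 1 + (R ^ k)⁻¹)
    linarith
  rw [Real.log_inv, Real.log_pow]
  have h3 := Real.log_nonneg hR
  have h4 : (0:ℝ) ≤ k := Nat.cast_nonneg k
  nlinarith

lemma iterate_arith {a : ℝ → ℝ} {K c : ℝ} (hK : 0 ≤ K) (hc : 0 ≤ c)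
    (hrec : ∀ R : ℝ, 1 ≤ R → a R ≤ K * (1 + Real.log R) * (R + a (2 * R) / R))
    (hE : ∀ R : ℝ, 1 ≤ R → a R ≤ c * R ^ 3) (R : ℝ) (hR : 1 ≤ R) :
    a R ≤ K * (1 + 8 * (K * (1 + 8 * c))) * (1 + Real.log R) ^ 2 * R := by
  have hA2 : ∀ R : ℝ, 1 ≤ R → a R ≤ K * (1 + 8 * c) * (1 + Real.log R) * R ^ 2 := by
    intro R hR
    have hR0 : 0 < R := by linarith
    have hl := Real.log_nonneg hR
    refine (hrec R hR).trans ?_
    have h2 := hE (2 * R) (by linarith)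
    have h3 : a (2 * R) / R ≤ 8 * c * R ^ 2 := by
      rw [div_le_iff₀ hR0]
      calc _ ≤ _ := h2
        _ = _ := by ring
    have h4 : R + a (2 * R) / R ≤ (1 + 8 * c) * R ^ 2 := by nlinarith
    calc _ ≤ K * (1 + Real.log R) * ((1 + 8 * c) * R ^ 2) :=
          mul_le_mul_of_nonneg_left h4 (by positivity)
      _ = _ := by ring
  have hR0 : 0 < R := by linarith
  have hl := Real.log_nonneg hR
  refine (hrec R hR).trans ?_
  have h2 := hA2 (2 * R) (by linarith)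
  obtain ⟨K4, hK4⟩ : ∃ K4 : ℝ, K4 = K * (1 + 8 * c) := ⟨_, rfl⟩
  have hK40 : 0 ≤ K4 := by rw [hK4]; positivity
  rw [← hK4] at h2 ⊢
  have h3 : a (2 * R) / R ≤ 8 * K4 * (1 + Real.log R) * R := by
    rw [div_le_iff₀ hR0]
    have h5 := log_two_mul hR
    calc _ ≤ _ := h2
      _ ≤ K4 * (2 * (1 + Real.log R)) * (2 * R) ^ 2 := by gcongr
      _ = _ := by ring
  have h4 : R + a (2 * R) / R ≤ (1 + 8 * K4) * ((1 + Real.log R) * R) := by
    have : R ≤ (1 + Real.log R) * R := by nlinarith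
    nlinarith
  calc _ ≤ K * (1 + Real.log R) * ((1 + 8 * K4) * ((1 + Real.log R) * R)) :=
        mul_le_mul_of_nonneg_left h4 (by positivity)
    _ = _ := by ring

namespace Std

variable (H : Std u)
include H

variable {c : ℝ}

lemma s_bound (hc : 0 ≤ c)
    (hcut : ∀ R : ℝ, 0 < R → Cutoff C R (chiR (n := n) R))
    (hE : ∀ R : ℝ, 1 ≤ R → ∫ x in box n R, psi u x ^ 2 ≤ c * R ^ 3) (R : ℝ) (hR : 1 ≤ R) :
    ∫ x in box n R, psi u x ^ 3 * qq u x ≤ 48 * n * C ^ 2 * c * R := by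
  have hR0 : 0 < R := by linarith
  have h1 := H.box_stab (hcut R hR0)
  have h2 := hE (2 * R) (by linarith)
  calc _ ≤ n * (C / R) ^ 2 * ∫ x in box n (2 * R), psi u x ^ 2 := h1
    _ ≤ n * (C / R) ^ 2 * (c * (2 * R) ^ 3) := mul_le_mul_of_nonneg_left h2 (by positivity)
    _ = 8 * n * C ^ 2 * c * R := by field_simp; ring
    _ ≤ _ := by
        have : 0 ≤ n * C ^ 2 * c * R := by positivity
        nlinarith

lemma h_bound (hcut : ∀ R : ℝ, 0 < R → Cutoff C R (chiR (n := n) R))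
    (hE : ∀ R : ℝ, 1 ≤ R → ∫ x in box n R, psi u x ^ 2 ≤ c * R ^ 3) (R : ℝ) (hR : 1 ≤ R) :
    ∫ x in box n R, psi u x ^ 2 * hh u x ≤ 48 * n * C ^ 2 * c * R := by
  have hR0 : 0 < R := by linarith
  have h1 := H.box_hess (hcut R hR0)
  have h2 := hE (2 * R) (by linarith)
  calc _ ≤ 6 * (n * (C / R) ^ 2 * ∫ x in box n (2 * R), psi u x ^ 2) := h1
    _ ≤ 6 * (n * (C / R) ^ 2 * (c * (2 * R) ^ 3)) := by gcongr
    _ = _ := by field_simp; ring

lemma g_crude {K1 : ℝ} (hc : 0 ≤ c)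
    (hE : ∀ R : ℝ, 1 ≤ R → ∫ x in box n R, psi u x ^ 2 ≤ c * R ^ 3)
    (hH : ∀ R : ℝ, 1 ≤ R → ∫ x in box n R, psi u x ^ 2 * hh u x ≤ K1 * R)
    (R : ℝ) (hR : 1 ≤ R) :
    ∫ x in box n R, psi u x ^ 2 * gq u x ≤ (2 * n * K1 + c) * R ^ 2 := by
  have hR0 : 0 < R := by linarith
  have h1 := H.box_gq hR0 R
  have h2 := hH R hR
  have h3 := hE R hR
  calc _ ≤ 2 * n * R * (∫ x in box n R, psi u x ^ 2 * hh u x)
      + 1 / (2 * R) * ∫ x in box n R, psi u x ^ 2 := h1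
    _ ≤ 2 * n * R * (K1 * R) + 1 / (2 * R) * (c * R ^ 3) := by gcongr
    _ = (2 * n * K1 + c / 2) * R ^ 2 := by field_simp
    _ ≤ _ := by
        have : 0 ≤ c * R ^ 2 := by positivity
        nlinarith

lemma rec_bound {K1 K2 : ℝ} (hC : 0 ≤ C) (hK1 : 0 ≤ K1) (hK2 : 0 ≤ K2)
    (hcut : ∀ R : ℝ, 0 < R → Cutoff C R (chiR (n := n) R))
    (hS : ∀ R : ℝ, 1 ≤ R → ∫ x in box n R, psi u x ^ 3 * qq u x ≤ K1 * R)
    (hH : ∀ R : ℝ, 1 ≤ R → ∫ x in box n R, psi u x ^ 2 * hh u x ≤ K1 * R)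
    (hX : ∀ R : ℝ, 1 ≤ R → ∫ x in box n R, psi u x ^ 2 * gq u x ≤ K2 * R ^ 2)
    (R : ℝ) (hR : 1 ≤ R) :
    ∫ x in box n R, psi u x ^ 2 * qq u x
      ≤ (4 ^ n + 5 * K1 + (n + 1) * (2 * K1 + 5 * n * C + 4 * C * K2)) * (1 + Real.log R)
        * (R + (∫ x in box n (2 * R), psi u x ^ 2 * qq u x) / R) := by
  have hR0 : 0 < R := by linarith
  have hl := Real.log_nonneg hR
  have h1 := H.main_ineq (hcut R hR0) hC hR (l := (R ^ n)⁻¹) (by positivity) (log_inv_pow n hR)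
  have h2 := hS (2 * R) (by linarith)
  have h3 := hH (2 * R) (by linarith)
  have h4 := hX (2 * R) (by linarith)
  have ha20 : 0 ≤ ∫ x in box n (2 * R), psi u x ^ 2 * qq u x :=
    box_int_nonneg fun x => mul_nonneg (sq_nonneg _) (H.q0 x)
  have e1 : 2 * (4 * R) ^ n * (R ^ n)⁻¹ = 2 * 4 ^ n := by
    rw [mul_pow]; field_simp
  rw [e1] at h1
  exact rec_arith (Nat.cast_nonneg n) hC hK1 hK2 (by linarith) hR ha20 (by positivity) h1 h2 h3 h4

lemma a_crude (hE : ∀ R : ℝ, 1 ≤ R → ∫ x in box n R, psi u x ^ 2 ≤ c * R ^ 3) (R : ℝ) (hR : 1 ≤ R) :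
    ∫ x in box n R, psi u x ^ 2 * qq u x ≤ c * R ^ 3 := by
  refine le_trans ?_ (hE R hR)
  have cψ := H.psic
  have cq := H.qqc
  exact box_int_le (by fun_prop) (by fun_prop) fun x _ => by
    have := qq_le_one (u := u) (x := x)
    nlinarith [sq_nonneg (psi u x)]

lemma g_bound {K1 K2 K5 : ℝ} (hC : 0 ≤ C) (hK1 : 0 ≤ K1) (hK2 : 0 ≤ K2) (hK5 : 0 ≤ K5)
    (hc : 0 ≤ c)
    (hcut : ∀ R : ℝ, 0 < R → Cutoff C R (chiR (n := n) R))
    (hE : ∀ R : ℝ, 1 ≤ R → ∫ x in box n R, psi u x ^ 2 ≤ c * R ^ 3)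
    (hS : ∀ R : ℝ, 1 ≤ R → ∫ x in box n R, psi u x ^ 3 * qq u x ≤ K1 * R)
    (hX : ∀ R : ℝ, 1 ≤ R → ∫ x in box n R, psi u x ^ 2 * gq u x ≤ K2 * R ^ 2)
    (hA : ∀ R : ℝ, 1 ≤ R →
      ∫ x in box n R, psi u x ^ 2 * qq u x ≤ K5 * (1 + Real.log R) ^ 2 * R)
    (R : ℝ) (hR : 1 ≤ R) :
    ∫ x in box n R, psi u x ^ 2 * gq u x
      ≤ (2 * (4 * K1 + 4 * C * K2) + n * (K5 + c)) * (1 + Real.log R) ^ 2 * R := by
  have hR0 : 0 < R := by linarith
  have hl := Real.log_nonneg hR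
  have h0 : (0:ℝ) < (R ^ 2)⁻¹ := by positivity
  have h1 := H.grad_ineq (hcut R hR0) h0 (log_inv_pow 2 hR)
  have h2 := H.box_gq' h0 R
  have h3 := hS (2 * R) (by linarith)
  have h4 := hX (2 * R) (by linarith)
  have h5 := hA R hR
  have h6 := hE R hR
  have e1 : (((2:ℕ):ℝ) + 1) = 3 := by norm_num
  rw [e1] at h1
  exact grad_arith (Nat.cast_nonneg n) hC hK1 hK2 hK5 hc (by linarith) hR h1 h2 h3 h4 h5 h6

lemma D_le_a (R : ℝ) : ∫ x in box n R, defi u x ≤ ∫ x in box n R, psi u x ^ 2 * qq u x := by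
  have cψ := H.psic
  have cq := H.qqc
  rw [H.defi_eq_qq]
  refine box_int_le (by fun_prop) (by fun_prop) fun x _ => ?_
  have : 0 ≤ psi u x ^ 2 * qq u x := mul_nonneg (sq_nonneg _) (H.q0 x)
  linarith

lemma gD_le (R : ℝ) : ∫ x in box n R, ∑ j, |pd j (defi u) x|
    ≤ 2 * n * (∫ x in box n R, psi u x ^ 2 * qq u x)
      + ∫ x in box n R, psi u x ^ 2 * gq u x := by
  have cψ := H.psic
  have cq := H.qqc
  have cg := H.gqc
  have cD : Continuous fun x => ∑ j, |pd j (defi u) x| :=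
    continuous_finsetSum _ fun j _ =>
      (continuous_pd (H.defi_contDiff.of_le (by norm_num))).abs
  have ib : ∀ {G : (Fin n → ℝ) → ℝ}, Continuous G → IntegrableOn G (box n R) := fun hG =>
    hG.continuousOn.integrableOn_compact (isCompact_box _)
  have e : ∫ x in box n R, (2 * n * (psi u x ^ 2 * qq u x) + psi u x ^ 2 * gq u x)
      = 2 * n * (∫ x in box n R, psi u x ^ 2 * qq u x)
      + ∫ x in box n R, psi u x ^ 2 * gq u x := by
    rw [integral_add (ib (by fun_prop)) (ib (by fun_prop)), integral_const_mul]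
  rw [← e]
  refine box_int_le cD (by fun_prop) fun x _ => ?_
  have h1 := H.sum_pd_defi_le x
  have h2 : 0 ≤ psi u x ^ 2 * gq u x := mul_nonneg (sq_nonneg _) gq_nonneg
  linarith

lemma d_bound (hC : 0 ≤ C) (hn : n ≤ 4)
    (hcut : ∀ R : ℝ, 0 < R → Cutoff C R (chiR (n := n) R))
    (hE : ∀ R : ℝ, 1 ≤ R → ∫ x in box n R, psi u x ^ 2 ≤ c * R ^ 3) (R : ℝ) (hR : 1 ≤ R) :
    ∫ x in box n R, psi u x ^ 2 * |dd u x| ≤ (32 * c + 320 * n * C * 4 ^ n) * R ^ 3 := by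
  have hR0 : 0 < R := by linarith
  have h1 := H.dist_ineq (hcut R hR0) hC hR
  have h2 := hE (2 * R) (by linarith)
  have h3 : R ^ n ≤ R ^ 4 := pow_le_pow_right₀ hR hn
  calc _ ≤ 4 * (∫ x in box n (2 * R), psi u x ^ 2) + 320 * n * C / R * (4 * R) ^ n := h1
    _ ≤ 4 * (c * (2 * R) ^ 3) + 320 * n * C / R * (4 ^ n * R ^ 4) := by
        rw [mul_pow]; gcongr
    _ = _ := by field_simp; ring

end Std

/-- The conclusions of the D-lemma, with constant `K`, centred at `0`. -/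
structure DBounds (K : ℝ) (u : (Fin n → ℝ) → ℝ) : Prop where
  /-- `∫ ψ³ q ≤ K R` -/
  s : ∀ R : ℝ, 1 ≤ R → ∫ x in box n R, psi u x ^ 3 * qq u x ≤ K * R
  /-- `∫ ψ² |D²d|² ≤ K R` -/
  h : ∀ R : ℝ, 1 ≤ R → ∫ x in box n R, psi u x ^ 2 * hh u x ≤ K * R
  /-- `∫ ψ² q ≤ K R log² R` -/
  a : ∀ R : ℝ, 1 ≤ R → ∫ x in box n R, psi u x ^ 2 * qq u x ≤ K * (1 + Real.log R) ^ 2 * R
  /-- `∫ ψ² |∇q| ≤ K R log² R` -/
  g : ∀ R : ℝ, 1 ≤ R → ∫ x in box n R, psi u x ^ 2 * gq u x ≤ K * (1 + Real.log R) ^ 2 * R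
  /-- `∫ D ≤ K R log² R` -/
  D : ∀ R : ℝ, 1 ≤ R → ∫ x in box n R, defi u x ≤ K * (1 + Real.log R) ^ 2 * R
  /-- `∫ |∇D| ≤ K R log² R` -/
  gD : ∀ R : ℝ, 1 ≤ R →
    ∫ x in box n R, ∑ j, |pd j (defi u) x| ≤ K * (1 + Real.log R) ^ 2 * R
  /-- `∫ ψ² |d| ≤ K R³` -/
  d : ∀ R : ℝ, 1 ≤ R → ∫ x in box n R, psi u x ^ 2 * |dd u x| ≤ K * R ^ 3

/-- **D-lemma** (M4-A5): uniform estimates for the Modica deficit of a stable solution with
`O(R³)` energy in dimension `n ≤ 4`. -/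
theorem dlemma (hn : n ≤ 4) (C0 : ℝ) : ∃ K : ℝ, 1 ≤ K ∧ ∀ u : (Fin n → ℝ) → ℝ, DStab u →
    (∀ x, |u x| < 1) → (∀ R : ℝ, 1 ≤ R → ∫ x in box n R, psi u x ^ 2 ≤ C0 * R ^ 3) →
    DBounds K u := by
  obtain ⟨C, hC1, hcut⟩ := exists_cutoff n
  -- constants
  obtain ⟨c, hc⟩ : ∃ c : ℝ, c = max C0 1 := ⟨_, rfl⟩
  have hc1 : 1 ≤ c := hc ▸ le_max_right _ _
  have hC0 : 0 ≤ C := by linarith
  have hN0 : (0:ℝ) ≤ n := Nat.cast_nonneg n
  obtain ⟨K1, hK1⟩ : ∃ K1 : ℝ, K1 = 48 * n * C ^ 2 * c := ⟨_, rfl⟩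
  have hK10 : 0 ≤ K1 := by rw [hK1]; positivity
  obtain ⟨K2, hK2⟩ : ∃ K2 : ℝ, K2 = 2 * n * K1 + c := ⟨_, rfl⟩
  have hK20 : 0 ≤ K2 := by rw [hK2]; positivity
  obtain ⟨K3, hK3⟩ : ∃ K3 : ℝ, K3 =
    4 ^ n + 5 * K1 + (n + 1) * (2 * K1 + 5 * n * C + 4 * C * K2) := ⟨_, rfl⟩
  have hK30 : 0 ≤ K3 := by rw [hK3]; positivity
  obtain ⟨K5, hK5⟩ : ∃ K5 : ℝ, K5 = K3 * (1 + 8 * (K3 * (1 + 8 * c))) := ⟨_, rfl⟩
  have hK50 : 0 ≤ K5 := by rw [hK5]; positivity
  obtain ⟨K6, hK6⟩ : ∃ K6 : ℝ, K6 = 2 * (4 * K1 + 4 * C * K2) + n * (K5 + c) := ⟨_, rfl⟩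
  have hK60 : 0 ≤ K6 := by rw [hK6]; positivity
  obtain ⟨K7, hK7⟩ : ∃ K7 : ℝ, K7 = 32 * c + 320 * n * C * 4 ^ n := ⟨_, rfl⟩
  have hK70 : 0 ≤ K7 := by rw [hK7]; positivity
  obtain ⟨K8, hK8⟩ : ∃ K8 : ℝ, K8 = 2 * n * K5 + K6 := ⟨_, rfl⟩
  have hK80 : 0 ≤ K8 := by rw [hK8]; positivity
  refine ⟨1 + K1 + K5 + K6 + K8 + K7, by linarith, fun u hst hlt hE' => ?_⟩
  have H : Std u := ⟨hst, hlt⟩
  -- energy
  have hE : ∀ R : ℝ, 1 ≤ R → ∫ x in box n R, psi u x ^ 2 ≤ c * R ^ 3 := fun R hR =>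
    (hE' R hR).trans (mul_le_mul_of_nonneg_right (hc ▸ le_max_left _ _) (by positivity))
  have hS : ∀ R : ℝ, 1 ≤ R → ∫ x in box n R, psi u x ^ 3 * qq u x ≤ K1 * R :=
    hK1 ▸ H.s_bound (by linarith) hcut hE
  have hH : ∀ R : ℝ, 1 ≤ R → ∫ x in box n R, psi u x ^ 2 * hh u x ≤ K1 * R :=
    hK1 ▸ H.h_bound hcut hE
  have hX : ∀ R : ℝ, 1 ≤ R → ∫ x in box n R, psi u x ^ 2 * gq u x ≤ K2 * R ^ 2 :=
    hK2 ▸ H.g_crude (by linarith) hE hH
  have hrec : ∀ R : ℝ, 1 ≤ R → ∫ x in box n R, psi u x ^ 2 * qq u x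
      ≤ K3 * (1 + Real.log R) * (R + (∫ x in box n (2 * R), psi u x ^ 2 * qq u x) / R) :=
    hK3 ▸ H.rec_bound hC0 hK10 hK20 hcut hS hH hX
  have hA : ∀ R : ℝ, 1 ≤ R →
      ∫ x in box n R, psi u x ^ 2 * qq u x ≤ K5 * (1 + Real.log R) ^ 2 * R :=
    hK5 ▸ iterate_arith (a := fun R => ∫ x in box n R, psi u x ^ 2 * qq u x) hK30
      (by linarith) hrec (H.a_crude hE)
  have hG : ∀ R : ℝ, 1 ≤ R →
      ∫ x in box n R, psi u x ^ 2 * gq u x ≤ K6 * (1 + Real.log R) ^ 2 * R :=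
    hK6 ▸ H.g_bound hC0 hK10 hK20 hK50 (by linarith) hcut hE hS hX hA
  have hd : ∀ R : ℝ, 1 ≤ R → ∫ x in box n R, psi u x ^ 2 * |dd u x| ≤ K7 * R ^ 3 :=
    hK7 ▸ H.d_bound hC0 hn hcut hE
  have hl2 : ∀ R : ℝ, 1 ≤ R → 0 ≤ (1 + Real.log R) ^ 2 * R := fun R hR => by
    have := Real.log_nonneg hR
    positivity
  have hD : ∀ R : ℝ, 1 ≤ R → ∫ x in box n R, defi u x ≤ K5 * (1 + Real.log R) ^ 2 * R :=
    fun R hR => (H.D_le_a R).trans (hA R hR)
  have hGD : ∀ R : ℝ, 1 ≤ R → ∫ x in box n R, ∑ j, |pd j (defi u) x|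
      ≤ K8 * (1 + Real.log R) ^ 2 * R := fun R hR => by
    refine (H.gD_le R).trans ?_
    have h1 := hA R hR
    have h2 := hG R hR
    have h3 : 2 * n * (∫ x in box n R, psi u x ^ 2 * qq u x)
        ≤ 2 * n * (K5 * (1 + Real.log R) ^ 2 * R) := by gcongr
    rw [hK8]
    linarith
  constructor
  · intro R hR
    exact (hS R hR).trans (mul_le_mul_of_nonneg_right (by linarith) (by linarith))
  · intro R hR
    exact (hH R hR).trans (mul_le_mul_of_nonneg_right (by linarith) (by linarith))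
  · intro R hR
    refine (hA R hR).trans ?_
    rw [mul_assoc, mul_assoc]
    exact mul_le_mul_of_nonneg_right (by linarith) (hl2 R hR)
  · intro R hR
    refine (hG R hR).trans ?_
    rw [mul_assoc, mul_assoc]
    exact mul_le_mul_of_nonneg_right (by linarith) (hl2 R hR)
  · intro R hR
    refine (hD R hR).trans ?_
    rw [mul_assoc, mul_assoc]
    exact mul_le_mul_of_nonneg_right (by linarith) (hl2 R hR)
  · intro R hR
    refine (hGD R hR).trans ?_
    rw [mul_assoc, mul_assoc]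
    exact mul_le_mul_of_nonneg_right (by linarith) (hl2 R hR)
  · intro R hR
    exact (hd R hR).trans (mul_le_mul_of_nonneg_right (by linarith) (by positivity))

end Vale.Agent.P134.H239
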