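import Vale.Agent.P134.Bdl.B1

/-! # P134 / M4 (helper239): pointwise identities for the signed profile distance `d = g⁻¹(u)`,
`q = 1 - |∇d|²` and the weighted divergence `wdiv u f = div (ψ² ∇ f)`. -/

open MeasureTheory Filter Topology

namespace Vale.Agent.P134.H239

open Vale.Agent.P134

variable {n : ℕ} {u f g h ζ Z : (Fin n → ℝ) → ℝ} {x : Fin n → ℝ} {i j : Fin n}

/-- The function `d` with `u = tanh (d / √2)`. -/
noncomputable def dd (u : (Fin n → ℝ) → ℝ) (x : Fin n → ℝ) : ℝ :=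
  (Real.log (1 + u x) - Real.log (1 - u x)) / √2

/-- `q = 1 - |∇ d|²`. -/
noncomputable def qq (u : (Fin n → ℝ) → ℝ) (x : Fin n → ℝ) : ℝ :=
  1 - ∑ i, pd i (dd u) x ^ 2

/-- `|D² d|²`. -/
noncomputable def hh (u : (Fin n → ℝ) → ℝ) (x : Fin n → ℝ) : ℝ :=
  ∑ i, ∑ j, pd i (pd j (dd u)) x ^ 2

/-- `div (ψ² ∇ f)`. -/
noncomputable def wdiv (u f : (Fin n → ℝ) → ℝ) (x : Fin n → ℝ) : ℝ :=
  ∑ i, pd i (fun y => psi u y ^ 2 * pd i f y) x

lemma psi_pos_of (hlt : |u x| < 1) : 0 < psi u x := by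
  have := abs_lt.mp hlt
  unfold psi
  nlinarith

lemma dd_contDiff {k : WithTop ℕ∞} (hu : ContDiff ℝ k u) (hlt : ∀ x, |u x| < 1) :
    ContDiff ℝ k (dd u) := by
  unfold dd
  refine ContDiff.div_const ?_ _
  refine ContDiff.sub ?_ ?_
  · exact (contDiff_const.add hu).log fun x => by
      have := abs_lt.mp (hlt x); linarith
  · exact (contDiff_const.sub hu).log fun x => by
      have := abs_lt.mp (hlt x); linarith

lemma pd_dd (hu : DifferentiableAt ℝ u x) (hlt : |u x| < 1) :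
    pd i (dd u) x = √2 * pd i u x / psi u x := by
  have h1 := abs_lt.mp hlt
  have hp : (0:ℝ) < 1 + u x := by linarith
  have hm : (0:ℝ) < 1 - u x := by linarith
  have h2 : (0:ℝ) < √2 := Real.sqrt_pos.mpr (by norm_num)
  have h22 : √2 * √2 = (2:ℝ) := Real.mul_self_sqrt (by norm_num)
  have e : dd u = fun y => (fun t : ℝ => (Real.log (1 + t) - Real.log (1 - t)) / √2) (u y) := rfl
  have hd : HasDerivAt (fun t : ℝ => (Real.log (1 + t) - Real.log (1 - t)) / √2)
      ((1 / (1 + u x) - (-1) / (1 - u x)) / √2) (u x) := by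
    have a1 : HasDerivAt (fun t : ℝ => Real.log (1 + t)) (1 / (1 + u x)) (u x) :=
      ((hasDerivAt_id (u x)).const_add 1).log hp.ne'
    have a2 : HasDerivAt (fun t : ℝ => Real.log (1 - t)) ((-1) / (1 - u x)) (u x) :=
      ((hasDerivAt_id (u x)).const_sub 1).log hm.ne'
    exact (a1.sub a2).div_const _
  rw [e, pd_comp hd.differentiableAt hu, hd.deriv]
  have hψ : psi u x = (1 + u x) * (1 - u x) := by unfold psi; ring
  rw [hψ]
  field_simp
  rw [show √2 ^ 2 = (2:ℝ) from Real.sq_sqrt (by norm_num)]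
  ring

lemma psi_mul_pd_dd (hu : DifferentiableAt ℝ u x) (hlt : |u x| < 1) :
    psi u x * pd i (dd u) x = √2 * pd i u x := by
  rw [pd_dd hu hlt]
  field_simp [(psi_pos_of hlt).ne']

lemma sq_pd_dd (hu : DifferentiableAt ℝ u x) (hlt : |u x| < 1) :
    psi u x ^ 2 * pd i (dd u) x ^ 2 = 2 * pd i u x ^ 2 := by
  have h := psi_mul_pd_dd (i := i) hu hlt
  have h22 : √2 ^ 2 = (2:ℝ) := Real.sq_sqrt (by norm_num)
  calc psi u x ^ 2 * pd i (dd u) x ^ 2 = (psi u x * pd i (dd u) x) ^ 2 := by ring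
    _ = 2 * pd i u x ^ 2 := by rw [h, mul_pow, h22]

lemma psi_sq_qq (hu : Differentiable ℝ u) (hlt : |u x| < 1) :
    psi u x ^ 2 * qq u x = 2 * defi u x := by
  unfold qq defi
  rw [mul_sub, Finset.mul_sum, Finset.sum_congr rfl fun i _ => sq_pd_dd (i := i) (hu x) hlt,
    ← Finset.mul_sum]
  ring

lemma qq_nonneg (hs : Sol u) (hlt : |u x| < 1) : 0 ≤ qq u x := by
  have h1 := psi_sq_qq (hs.c2.differentiable (by norm_num)) hlt
  have h2 := hs.defi_nonneg x
  have h3 := psi_pos_of hlt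
  by_contra hc
  push Not at hc
  have : psi u x ^ 2 * qq u x < 0 := mul_neg_of_pos_of_neg (by positivity) hc
  linarith

lemma qq_le_one : qq u x ≤ 1 := by
  unfold qq
  have : 0 ≤ ∑ i, pd i (dd u) x ^ 2 := Finset.sum_nonneg fun _ _ => sq_nonneg _
  linarith

lemma hh_nonneg : 0 ≤ hh u x :=
  Finset.sum_nonneg fun _ _ => Finset.sum_nonneg fun _ _ => sq_nonneg _

lemma psi_contDiff {k : WithTop ℕ∞} (hu : ContDiff ℝ k u) : ContDiff ℝ k (psi u) := by
  unfold psi
  exact contDiff_const.sub (hu.pow 2)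

/-- `Δ d = -√2 u q`. -/
lemma lap_dd (hs : Sol u) (hlt : ∀ x, |u x| < 1) (x : Fin n → ℝ) :
    ∑ i, pd i (pd i (dd u)) x = - (√2 * u x * qq u x) := by
  have hd : Differentiable ℝ u := hs.c2.differentiable (by norm_num)
  have hdi : ∀ i, Differentiable ℝ (pd i u) := fun i =>
    (contDiff_pd_one hs.c2).differentiable (by norm_num)
  have hψ := psi_pos_of (hlt x)
  have dψ : Differentiable ℝ (psi u) := hs.psi_contDiff.differentiable (by norm_num)
  have e1 : ∀ i, pd i (dd u) = fun y => (√2 * pd i u y) / psi u y := fun i => by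
    funext y; exact pd_dd (hd y) (hlt y)
  have e2 : ∀ i, pd i (pd i (dd u)) x = √2 * pd i (pd i u) x / psi u x
      + 2 * √2 * u x * pd i u x ^ 2 / psi u x ^ 2 := by
    intro i
    rw [e1 i, pd_div ((hdi i x).const_mul _) (dψ x) hψ.ne', hs.pd_psi,
      pd_mul (f := fun _ => √2) (by fun_prop) (hdi i x), pd_const]
    ring
  simp_rw [e2]
  rw [Finset.sum_add_distrib, ← Finset.sum_div, ← Finset.mul_sum, hs.eq, ← Finset.sum_div,
    ← Finset.mul_sum]
  have h3 : ∑ i, pd i u x ^ 2 = psi u x ^ 2 * (1 - qq u x) / 2 := by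
    have := psi_sq_qq hd (hlt x)
    unfold defi at this
    linarith
  rw [h3]
  have h4 : u x ^ 3 - u x = - (u x * psi u x) := by unfold psi; ring
  rw [h4]
  field_simp
  ring

lemma pd_qq (hu : ContDiff ℝ 2 u) (hlt : ∀ x, |u x| < 1) (j : Fin n) (x : Fin n → ℝ) :
    pd j (qq u) x = - 2 * ∑ i, pd i (dd u) x * pd j (pd i (dd u)) x := by
  have hdd := dd_contDiff hu hlt
  have hdi : ∀ i, Differentiable ℝ (pd i (dd u)) := fun i =>
    (contDiff_pd_one hdd).differentiable (by norm_num)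
  unfold qq
  rw [pd_sub (by fun_prop) (DifferentiableAt.fun_sum fun i _ => (hdi i x).fun_pow 2), pd_const,
    pd_sum _ (fun i _ => (hdi i x).fun_pow 2), Finset.mul_sum, zero_sub, ← Finset.sum_neg_distrib]
  refine Finset.sum_congr rfl fun i _ => ?_
  rw [pd_sq (hdi i x)]
  ring

/-- `∇ψ = -√2 u ψ ∇d`. -/
lemma pd_psi_dd (hs : Sol u) (hlt : ∀ x, |u x| < 1) (i : Fin n) (x : Fin n → ℝ) :
    pd i (psi u) x = - (√2 * u x * psi u x * pd i (dd u) x) := by
  have hd : Differentiable ℝ u := hs.c2.differentiable (by norm_num)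
  rw [hs.pd_psi, show √2 * u x * psi u x * pd i (dd u) x = √2 * u x * (psi u x * pd i (dd u) x) by
    ring, psi_mul_pd_dd (hd x) (hlt x)]
  have : √2 * √2 = (2:ℝ) := Real.mul_self_sqrt (by norm_num)
  linear_combination (u x * pd i u x) * this

/-- product rule for the weighted divergence -/
lemma wdiv_eq (hψ : ContDiff ℝ 1 (psi u)) (hf : ContDiff ℝ 2 f) (x : Fin n → ℝ) :
    wdiv u f x = psi u x ^ 2 * ∑ i, pd i (pd i f) x
      + 2 * psi u x * ∑ i, pd i (psi u) x * pd i f x := by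
  have dψ : Differentiable ℝ (psi u) := hψ.differentiable (by norm_num)
  have dfi : ∀ i, Differentiable ℝ (pd i f) := fun i =>
    (contDiff_pd_one hf).differentiable (by norm_num)
  unfold wdiv
  rw [Finset.mul_sum, Finset.mul_sum, ← Finset.sum_add_distrib]
  refine Finset.sum_congr rfl fun i _ => ?_
  rw [pd_mul ((dψ x).fun_pow 2) (dfi i x), pd_sq (dψ x)]
  ring

/-- The identity `div (ψ² ∇q) = ψ² (2 ψ q (1-q) - 2 |D²d|²)`. -/
theorem wdiv_qq (hs : Sol u) (h3 : ContDiff ℝ 3 u) (hlt : ∀ x, |u x| < 1) (x : Fin n → ℝ) :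
    wdiv u (qq u) x = psi u x ^ 2 * (2 * psi u x * qq u x * (1 - qq u x) - 2 * hh u x) := by
  have hdd3 : ContDiff ℝ 3 (dd u) := dd_contDiff h3 hlt
  have hdd2 : ContDiff ℝ 2 (dd u) := hdd3.of_le (by norm_num)
  have hdi2 : ∀ i, ContDiff ℝ 2 (pd i (dd u)) := fun i => contDiff_pd (k := 2) (by exact_mod_cast hdd3)
  have hdi : ∀ i, Differentiable ℝ (pd i (dd u)) := fun i => (hdi2 i).differentiable (by norm_num)
  have hdij : ∀ i j, Differentiable ℝ (pd j (pd i (dd u))) := fun i j =>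
    (contDiff_pd_one (hdi2 i)).differentiable (by norm_num)
  have hq2 : ContDiff ℝ 2 (qq u) := by
    unfold qq
    exact contDiff_const.sub (ContDiff.sum fun i _ => (hdi2 i).pow 2)
  have hu : Differentiable ℝ u := hs.c2.differentiable (by norm_num)
  have hqd : Differentiable ℝ (qq u) := hq2.differentiable (by norm_num)
  rw [wdiv_eq (hs.psi_contDiff.of_le (by norm_num)) hq2]
  -- second derivatives of q
  have e1 : ∀ j, pd j (qq u) = fun x => - 2 * ∑ i, pd i (dd u) x * pd j (pd i (dd u)) x := fun j => by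
    funext y; exact pd_qq hs.c2 hlt j y
  have e2 : ∀ j, pd j (pd j (qq u)) x = - 2 * ∑ i, (pd j (pd i (dd u)) x ^ 2
      + pd i (dd u) x * pd j (pd j (pd i (dd u))) x) := by
    intro j
    rw [e1 j, pd_mul (f := fun _ => (-2:ℝ)) (by fun_prop)
      (DifferentiableAt.fun_sum fun i _ => (hdi i x).fun_mul (hdij i j x)), pd_const,
      pd_sum _ (fun i _ => (hdi i x).fun_mul (hdij i j x))]
    simp only [mul_zero, add_zero]
    congr 1
    refine Finset.sum_congr rfl fun i _ => ?_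
    rw [pd_mul (hdi i x) (hdij i j x)]
    ring
  have e3 : ∀ i, ∑ j, pd j (pd j (pd i (dd u))) x = - √2 * (pd i u x * qq u x + u x * pd i (qq u) x) := by
    intro i
    have c1 : ∀ j, pd j (pd j (pd i (dd u))) x = pd i (pd j (pd j (dd u))) x := by
      intro j
      have : pd j (pd i (dd u)) = pd i (pd j (dd u)) := by
        funext y; exact pd_comm hdd2
      rw [this]
      exact pd_comm (hdi2 j)
    simp_rw [c1]
    rw [← pd_sum _ (fun j _ => hdij j j x)]
    have : (fun y => ∑ k, pd k (pd k (dd u)) y) = fun y => (-√2 * u y) * qq u y := by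
      funext y; rw [lap_dd hs hlt]; ring
    rw [this, pd_mul (f := fun y => -√2 * u y) ((hu x).const_mul _) (hqd x),
      pd_mul (f := fun _ => -√2) (by fun_prop) (hu x), pd_const]
    ring
  have e4 : ∑ j, pd j (pd j (qq u)) x = -2 * hh u x
      + 2 * √2 * ∑ i, pd i (dd u) x * (pd i u x * qq u x + u x * pd i (qq u) x) := by
    simp_rw [e2]
    rw [← Finset.mul_sum]
    simp_rw [Finset.sum_add_distrib]
    have s1 : ∑ j, ∑ i, pd j (pd i (dd u)) x ^ 2 = hh u x := rfl
    have s2 : ∑ j, ∑ i, pd i (dd u) x * pd j (pd j (pd i (dd u))) x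
        = ∑ i, pd i (dd u) x * (- √2 * (pd i u x * qq u x + u x * pd i (qq u) x)) := by
      rw [Finset.sum_comm]
      refine Finset.sum_congr rfl fun i _ => ?_
      rw [← Finset.mul_sum, e3]
    rw [s1, s2, mul_add, Finset.mul_sum, Finset.mul_sum]
    congr 1
    refine Finset.sum_congr rfl fun i _ => ?_
    ring
  rw [e4]
  have e5 : ∀ i, pd i (psi u) x * pd i (qq u) x
      = - (√2 * u x * psi u x) * (pd i (dd u) x * pd i (qq u) x) := by
    intro i
    rw [pd_psi_dd hs hlt]; ring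
  simp_rw [e5]
  rw [← Finset.mul_sum]
  have e6 : ∑ i, pd i (dd u) x * (pd i u x * qq u x + u x * pd i (qq u) x)
      = psi u x * (1 - qq u x) / √2 * qq u x + u x * ∑ i, pd i (dd u) x * pd i (qq u) x := by
    have : ∑ i, pd i (dd u) x * pd i u x = psi u x * (1 - qq u x) / √2 := by
      have h2 : (0:ℝ) < √2 := Real.sqrt_pos.mpr (by norm_num)
      rw [eq_div_iff h2.ne', Finset.sum_mul]
      have : ∀ i, pd i (dd u) x * pd i u x * √2 = psi u x * pd i (dd u) x ^ 2 := by
        intro i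
        have := psi_mul_pd_dd (i := i) (hu x) (hlt x)
        linear_combination (- pd i (dd u) x) * this
      simp_rw [this]
      rw [← Finset.mul_sum]
      unfold qq; ring
    rw [← this, Finset.sum_mul, Finset.mul_sum, ← Finset.sum_add_distrib]
    refine Finset.sum_congr rfl fun i _ => ?_
    ring
  rw [e6]
  have h2 : (0:ℝ) < √2 := Real.sqrt_pos.mpr (by norm_num)
  field_simp
  ring

/-- `|∇ψ|² ≤ 2 ψ²` -/
lemma sum_pd_psi_sq (hs : Sol u) (hlt : ∀ x, |u x| < 1) (x : Fin n → ℝ) :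
    ∑ i, pd i (psi u) x ^ 2 = 2 * (1 - psi u x) * psi u x ^ 2 * (1 - qq u x) := by
  have e : ∀ i, pd i (psi u) x ^ 2 = 2 * u x ^ 2 * psi u x ^ 2 * pd i (dd u) x ^ 2 := by
    intro i
    rw [pd_psi_dd hs hlt]
    have : √2 ^ 2 = (2:ℝ) := Real.sq_sqrt (by norm_num)
    linear_combination (u x ^ 2 * psi u x ^ 2 * pd i (dd u) x ^ 2) * this
  simp_rw [e]
  rw [← Finset.mul_sum]
  unfold qq psi
  ring

lemma lap_psi_qq (hs : Sol u) (hlt : ∀ x, |u x| < 1) (x : Fin n → ℝ) :
    ∑ i, pd i (pd i (psi u)) x = psi u x * (2 - 3 * psi u x + psi u x * qq u x) := by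
  have h1 := hs.lap_psi x
  have h2 := psi_sq_qq (hs.c2.differentiable (by norm_num)) (hlt x)
  rw [h1]
  have : u x ^ 2 = 1 - psi u x := by unfold psi; ring
  rw [this]
  linear_combination - h2

/-- `div (ψ² ∇ log(ψ+l)) ≥ (ψ/(ψ+l)) ψ² 2 - 5 ψ³` -/
lemma wdiv_log (hs : Sol u) (hlt : ∀ x, |u x| < 1) {l : ℝ} (hl : 0 < l) (x : Fin n → ℝ) :
    2 * (psi u x / (psi u x + l)) * psi u x ^ 2 - 5 * psi u x ^ 3
      ≤ wdiv u (fun y => Real.log (psi u y + l)) x := by
  have hψ := psi_pos_of (hlt x)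
  have hψl : ∀ y, 0 < psi u y + l := fun y => by have := psi_pos_of (hlt y); linarith
  have hc2 : ContDiff ℝ 2 (fun y => Real.log (psi u y + l)) :=
    (hs.psi_contDiff.add contDiff_const).log fun y => (hψl y).ne'
  have dψ : Differentiable ℝ (psi u) := hs.psi_contDiff.differentiable (by norm_num)
  have dψi : ∀ i, Differentiable ℝ (pd i (psi u)) := fun i =>
    (contDiff_pd_one hs.psi_contDiff).differentiable (by norm_num)
  have e1 : ∀ i, pd i (fun y => Real.log (psi u y + l)) = fun y => pd i (psi u) y / (psi u y + l) := by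
    intro i
    funext y
    have hd : HasDerivAt (fun t : ℝ => Real.log (t + l)) (1 / (psi u y + l)) (psi u y) :=
      ((hasDerivAt_id (psi u y)).add_const l).log (hψl y).ne'
    rw [show (fun y => Real.log (psi u y + l)) = fun y => (fun t : ℝ => Real.log (t + l)) (psi u y)
      from rfl, pd_comp hd.differentiableAt (dψ y), hd.deriv]
    ring
  have e0 : ∀ i, pd i (fun y => psi u y + l) x = pd i (psi u) x := by
    intro i; rw [pd_add (dψ x) (by fun_prop), pd_const, add_zero]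
  have e2 : ∀ i, pd i (pd i (fun y => Real.log (psi u y + l))) x
      = pd i (pd i (psi u)) x / (psi u x + l) - pd i (psi u) x ^ 2 / (psi u x + l) ^ 2 := by
    intro i
    rw [e1 i, pd_div (dψi i x) ((dψ x).add_const l) (hψl x).ne', e0]
    ring
  rw [wdiv_eq (hs.psi_contDiff.of_le (by norm_num)) hc2]
  simp_rw [e2, e1]
  have e3 : ∀ i, pd i (psi u) x * (pd i (psi u) x / (psi u x + l))
      = pd i (psi u) x ^ 2 / (psi u x + l) := fun i => by ring
  simp_rw [e3]
  rw [Finset.sum_sub_distrib, ← Finset.sum_div, ← Finset.sum_div, ← Finset.sum_div,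
    sum_pd_psi_sq hs hlt, lap_psi_qq hs hlt]
  have hq0 := qq_nonneg hs (hlt x)
  have hq1 := qq_le_one (u := u) (x := x)
  have hψ1 := psi_le_one u x
  set p := psi u x
  set q := qq u x
  have hpl : 0 < p + l := by linarith
  -- multiply out with t = p/(p+l)
  set t := p / (p + l) with ht
  have ht0 : 0 < t := div_pos hψ hpl
  have ht1 : t ≤ 1 := (div_le_one hpl).mpr (by linarith)
  have hkey : p ^ 2 * (p * (2 - 3 * p + p * q) / (p + l) - 2 * (1 - p) * p ^ 2 * (1 - q) / (p + l) ^ 2)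
      + 2 * p * (2 * (1 - p) * p ^ 2 * (1 - q) / (p + l))
      = t * p ^ 2 * ((2 - 3 * p + p * q) + 2 * (1 - p) * (1 - q) * (2 - t)) := by
    rw [ht]; field_simp; ring
  rw [hkey]
  have h5 : 2 - 5 * p ≤ (2 - 3 * p + p * q) + 2 * (1 - p) * (1 - q) * (2 - t) := by
    have a1 : 0 ≤ (1 - p) * (1 - q) := mul_nonneg (by linarith) (by linarith)
    have a2 : 0 ≤ (1 - p) * (1 - q) * (2 - t) := mul_nonneg a1 (by linarith)
    have a3 : 0 ≤ p * q := by positivity
    nlinarith
  have h6 : 0 < t * p ^ 2 := by positivity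
  have h7 := mul_le_mul_of_nonneg_left h5 h6.le
  have h8 : t * p ^ 2 * (5 * p) ≤ 5 * p ^ 3 := by
    have : 0 ≤ p ^ 3 := by positivity
    nlinarith
  nlinarith

/-- `div (ψ² ∇ (d²)) / 2 = ψ² ((1-q) - √2 u d (2-q))` -/
lemma wdiv_dsq (hs : Sol u) (hlt : ∀ x, |u x| < 1) (x : Fin n → ℝ) :
    wdiv u (fun y => dd u y ^ 2) x
      = 2 * psi u x ^ 2 * ((1 - qq u x) - √2 * u x * dd u x * (2 - qq u x)) := by
  have hdd2 : ContDiff ℝ 2 (dd u) := dd_contDiff hs.c2 hlt
  have hd : Differentiable ℝ (dd u) := hdd2.differentiable (by norm_num)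
  have hdi : ∀ i, Differentiable ℝ (pd i (dd u)) := fun i =>
    (contDiff_pd_one hdd2).differentiable (by norm_num)
  rw [wdiv_eq (hs.psi_contDiff.of_le (by norm_num)) (hdd2.pow 2)]
  have e1 : ∀ i, pd i (fun y => dd u y ^ 2) = fun y => 2 * dd u y * pd i (dd u) y := fun i => by
    funext y; exact pd_sq (hd y)
  have e2 : ∀ i, pd i (pd i (fun y => dd u y ^ 2)) x
      = 2 * (pd i (dd u) x ^ 2 + dd u x * pd i (pd i (dd u)) x) := by
    intro i
    rw [e1 i, pd_mul (f := fun y => 2 * dd u y) ((hd x).const_mul _) (hdi i x),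
      pd_mul (f := fun _ => (2:ℝ)) (by fun_prop) (hd x), pd_const]
    ring
  simp_rw [e2, e1]
  have e3 : ∀ i, pd i (psi u) x * (2 * dd u x * pd i (dd u) x)
      = - (2 * √2 * u x * psi u x * dd u x) * pd i (dd u) x ^ 2 := by
    intro i; rw [pd_psi_dd hs hlt]; ring
  simp_rw [e3]
  rw [← Finset.mul_sum, ← Finset.mul_sum, Finset.sum_add_distrib, ← Finset.mul_sum, lap_dd hs hlt]
  have : ∑ i, pd i (dd u) x ^ 2 = 1 - qq u x := by unfold qq; ring
  rw [this]
  ring

end Vale.Agent.P134.H239
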